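import Vale.Agent.P092.SR.Multi

/-!
P092, project B, all amplifications: the operator side without the antiunitary flip of one space
(`SR.overlap` with explicit source side data), and the transport of the data along unitary or
antiunitary intertwiners.
-/

set_option linter.all false

open scoped InnerProductSpace ComplexOrder
open Filter Topology ContinuousLinearMap MeasureTheory

namespace Vale.Agent.P092.H962

open Vale.Agent.P092.H160 Vale.Agent.P092.SR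

section core

variable {ι I Γ ℋ : Type} [Fintype ι] [Fintype I] [Group Γ] [NormedAddCommGroup ℋ]
  [InnerProductSpace ℂ ℋ] [CompleteSpace ℋ] {H : I → Type} [∀ i, Group (H i)]
  [∀ i, TopologicalSpace (H i)] {V R₁ R₂ : Γ →* (ℋ →L[ℂ] ℋ)} {ξ : ι → ℋ}

/-- The data of one leg: ergodicity and finiteness, on the target and on the source side. -/
structure LegD (V R₁ R₂ : Γ →* (ℋ →L[ℂ] ℋ)) (p : ∀ i, Γ →* H i) : Prop where
  eT : ∀ i, ErgAt V R₁ R₂ (p i)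
  eS : ∀ i, ErgAt R₁ V R₂ (p i)
  fT : ∀ i, ∃ j, FinI (p i) (p j) V R₁ (Set.range R₂)
  fS : ∀ i, ∃ j, FinI (p i) (p j) R₁ V (Set.range R₂)

theorem matchT (hM : MatchRStmt) (hT : Tri V R₁ R₂ ξ)
    (hG : ∀ i, GoodGrp (H i)) {p : ∀ i, Γ →* H i} (hp : Plc p) {i j i' : I}
    (h1 : FinI (p i) (p j) V R₁ (Set.range R₂)) (h2 : FinI (p j) (p i') R₁ V (Set.range R₂)) :
    i = i' := by
  by_contra hne
  haveI := hp.countable
  obtain ⟨K₁, L₁, hK₁, hL₁, x, hx, hx0, hxn, c, hc⟩ := h1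
  obtain ⟨K₂, L₂, hK₂, hL₂, y, hy, hy0, hyn, d, hd⟩ := h2
  rcases hM V R₁ R₂ ξ (p i) (p i') (p j) hT (hG i) (hG i') (hG j) (hp.lat i i' hne) (hp.dense i)
    (hp.dense i') K₁ L₂ L₁ K₂ hK₁ hL₂ hL₁ hK₂ x y hx ⟨hy.2.1, hy.1, hy.2.2⟩ hx0
    hy0 c d hc hd with h | h
  · exact hxn h
  · exact hyn h

theorem leg_ofT {G G' : Type} [Group G] [TopologicalSpace G] [Group G'] [TopologicalSpace G']
    {p : Γ →* G} {p' : Γ →* G'} (hT : Tri V R₁ R₂ ξ)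
    (hp : DenseRange p) (hp' : DenseRange p') (he : ErgAt V R₁ R₂ p) (he' : ErgAt R₁ V R₂ p')
    (hf : FinI p p' V R₁ (Set.range R₂)) : Leg p p' V R₁ (Set.range R₂) where
  dense := hp
  dense' := hp'
  adjS := hT.adjV
  adjT := hT.adj₁
  comm := hT.comm₁
  scS := by rintro _ ⟨g, rfl⟩ k; exact (hT.comm₂ k g).symm
  scT := by rintro _ ⟨g, rfl⟩ k; exact (hT.comm₁₂ k g).symm
  sc_adj := by rintro _ ⟨g, rfl⟩; exact ⟨g⁻¹, (hT.adj₂ g).symm⟩
  ergT U hU x hx := he.qs hU hx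
  ergS U hU x hx := he' U hU x hx.2.1 (fun g => hx.1 g (Subgroup.mem_top _))
    fun g => hx.2.2 _ ⟨g, rfl⟩
  finT := hf

/-- the families of one leg -/
theorem legsT (hM : MatchRStmt) (hA : ThAStmt) (hT : Tri V R₁ R₂ ξ)
    (hG : ∀ i, GoodGrp (H i)) {p : ∀ i, Γ →* H i} (hp : Plc p) (hL : LegD V R₁ R₂ p) :
    ∃ (q : ∀ i, Γ →* H i) (P : ∀ i, Set (H i) → (ℋ →L[ℂ] ℋ)), (∀ i, DenseRange (q i)) ∧
      (∃ K : ∀ i, Subgroup (H i), (∀ i, COS (K i)) ∧ ∀ g, (∀ i, q i g ∈ K i) → g = 1) ∧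
      ∀ i, PFam (p i) (q i) V R₁ (Set.range R₂) (P i) := by
  haveI := hp.countable
  choose σ hσ using hL.fT
  choose τ hτ using hL.fS
  have hinv : ∀ i, τ (σ i) = i := fun i => (matchT hM hT hG hp (hσ i) (hτ (σ i))).symm
  have hsur : Function.Surjective σ :=
    Finite.injective_iff_surjective.mp (Function.LeftInverse.injective hinv)
  have hta : ∀ i, ∃ (ψ : H (σ i) ≃ₜ* H i) (P : Set (H i) → (ℋ →L[ℂ] ℋ)),
      PFam (p i) (ψ.toMulEquiv.toMonoidHom.comp (p (σ i))) V R₁ (Set.range R₂) P := fun i =>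
    hA (p i) (p (σ i)) V R₁ (Set.range R₂) (hG i) (hG (σ i))
      (leg_ofT hT (hp.dense i) (hp.dense (σ i)) (hL.eT i) (hL.eS (σ i)) (hσ i))
  choose ψ P hP using hta
  obtain ⟨K, hK1, hK2⟩ := hp.small
  refine ⟨fun i => (ψ i).toMulEquiv.toMonoidHom.comp (p (σ i)), P, fun i => ?_, ?_, hP⟩
  · exact (ψ i).toHomeomorph.surjective.denseRange.comp (hp.dense (σ i))
      (ψ i).toHomeomorph.continuous
  · refine ⟨fun i => (K (σ i)).map (ψ i).toMulEquiv.toMonoidHom, fun i => ⟨?_, ?_⟩,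
      fun g hg => ?_⟩
    · exact (hK1 (σ i)).1.image (ψ i).continuous
    · exact (ψ i).toHomeomorph.isOpenMap _ (hK1 (σ i)).2
    · refine hK2 g fun j => ?_
      obtain ⟨i, rfl⟩ := hsur j
      obtain ⟨a, ha, ha2⟩ := hg i
      have e1 : a = p (σ i) g := (ψ i).injective ha2
      exact e1 ▸ ha

/-- **The core of project B**, for any finite number of places and any finite frame, without the
flip. -/
theorem overlapT (hM : MatchRStmt) (hA : ThAStmt) (h5 : C5RStmt) (h6 : C6RStmt) (h7 : C7RStmt)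
    (hT : Tri V R₁ R₂ ξ) (hT' : Tri V R₂ R₁ ξ)
    (hG : ∀ i, GoodGrp (H i)) {p : ∀ i, Γ →* H i} (hp : Plc p)
    (hL₁ : LegD V R₁ R₂ p) (hL₂ : LegD V R₂ R₁ p) :
    ∃ (r : ℕ) (ζ : Fin r → ℋ) (κ : ℝ), 0 < κ ∧ (∀ i, ‖ζ i‖ = 1) ∧
      ∀ g, ∃ i j a b, κ ≤ ‖⟪V g (ζ i), R₁ a (R₂ b (ζ j))⟫_ℂ‖ := by
  haveI := hp.countable
  obtain ⟨q, P, hq, hK, hP⟩ := legsT hM hA hT hG hp hL₁
  obtain ⟨q', Q, hq', hK', hQ⟩ := legsT hM hA hT' hG hp hL₂
  refine end_multi hG hT hP hQ ?_ ?_ ?_ hK hK'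
  · exact fun i j hij => h5 V R₁ R₂ ξ (p i) (q i) (p j) (q j) hT (hG i) (hG j)
      (hp.lat i j hij) (P i) (P j) (hP i) (hP j)
  · exact fun i j hij => h5 V R₂ R₁ ξ (p i) (q' i) (p j) (q' j) hT' (hG i) (hG j)
      (hp.lat i j hij) _ _ (hQ i) (hQ j)
  · intro i j
    by_cases hij : i = j
    · subst hij
      exact h7 V R₁ R₂ ξ (p i) (q i) (q' i) hT (hG i) (hp.dense i) (hq i) (hq' i) (P i) _ (hP i)
        (hQ i)
    · exact h6 V R₁ R₂ ξ (p i) (q i) (p j) (q' j) hT (hG i) (hG j) (hp.lat i j hij) (P i) _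
        (hP i) (hQ j)

end core

/-! ### Transport along unitary or antiunitary intertwiners -/

section transport

variable {Γ ℋ ℋ' : Type} [Group Γ] [NormedAddCommGroup ℋ] [InnerProductSpace ℂ ℋ]
  [CompleteSpace ℋ] [NormedAddCommGroup ℋ'] [InnerProductSpace ℂ ℋ'] [CompleteSpace ℋ']

/-- `U` is a unitary (`σ = id`) or an antiunitary (`σ` the conjugation), `U'` its inverse. -/
structure AU (σ : ℂ → ℂ) (U : ℋ → ℋ') (U' : ℋ' → ℋ) : Prop where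
  add : ∀ x y, U (x + y) = U x + U y
  add' : ∀ x y, U' (x + y) = U' x + U' y
  smul : ∀ (c : ℂ) x, U (c • x) = σ c • U x
  smul' : ∀ (c : ℂ) x, U' (c • x) = σ c • U' x
  norm : ∀ x, ‖U x‖ = ‖x‖
  norm' : ∀ x, ‖U' x‖ = ‖x‖
  inv : ∀ x, U' (U x) = x
  inv' : ∀ x, U (U' x) = x
  ss : ∀ c, σ (σ c) = c
  inn : ∀ x y, ⟪U x, U y⟫_ℂ = σ ⟪x, y⟫_ℂ
  re : ∀ c, (σ c).re = c.re
  real : ∀ r : ℝ, σ r = r

variable {σ : ℂ → ℂ} {U : ℋ → ℋ'} {U' : ℋ' → ℋ} (h : AU σ U U')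

include h in
theorem AU.symm : AU σ U' U where
  add := h.add'
  add' := h.add
  smul := h.smul'
  smul' := h.smul
  norm := h.norm'
  norm' := h.norm
  inv := h.inv'
  inv' := h.inv
  ss := h.ss
  inn x y := by
    have := h.inn (U' x) (U' y)
    rw [h.inv', h.inv'] at this
    rw [this, h.ss]
  re := h.re
  real := h.real

/-- conjugation by `U` -/
noncomputable def AU.cj (h : AU σ U U') (x : ℋ →L[ℂ] ℋ) : ℋ' →L[ℂ] ℋ' :=
  LinearMap.mkContinuous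
    { toFun := fun v => U (x (U' v))
      map_add' := fun u v => by rw [h.add', map_add, h.add]
      map_smul' := fun c v => by
        rw [h.smul', map_smul, h.smul, h.ss]
        rfl } ‖x‖
    (fun v => by
      change ‖U (x (U' v))‖ ≤ _
      rw [h.norm]
      refine (x.le_opNorm _).trans ?_
      rw [h.norm'])

theorem AU.cj_apply (x : ℋ →L[ℂ] ℋ) (v : ℋ') : h.cj x v = U (x (U' v)) := rfl

theorem AU.cj_comm {x a : ℋ →L[ℂ] ℋ} {a' : ℋ' →L[ℂ] ℋ'} (ha : ∀ v, U (a v) = a' (U v))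
    (hx : x * a = a * x) : h.cj x * a' = a' * h.cj x := by
  ext1 v
  change U (x (U' (a' v))) = a' (U (x (U' v)))
  have e1 : U' (a' v) = a (U' v) := by
    have := ha (U' v)
    rw [h.inv'] at this
    rw [← this, h.inv]
  rw [e1, ← ha]
  exact congrArg U (congrArg (fun T : ℋ →L[ℂ] ℋ => T (U' v)) hx)

theorem AU.cj_cj (x : ℋ →L[ℂ] ℋ) : h.symm.cj (h.cj x) = x := by
  ext1 v
  change U' (U (x (U' (U v)))) = x v
  rw [h.inv, h.inv]

theorem AU.cj_scalar (c : ℂ) : h.cj (c • (1 : ℋ →L[ℂ] ℋ)) = σ c • (1 : ℋ' →L[ℂ] ℋ') := by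
  ext1 v
  change U (c • U' v) = σ c • v
  rw [h.smul, h.inv']

theorem AU.cj_nonneg {x : ℋ →L[ℂ] ℋ} (hx : 0 ≤ x) : 0 ≤ h.cj x := by
  rw [nonneg_iff_isPositive, isPositive_iff_complex] at hx ⊢
  intro v
  obtain ⟨h1, h2⟩ := hx (U' v)
  have e : ⟪h.cj x v, v⟫_ℂ = ⟪x (U' v), U' v⟫_ℂ := by
    have e2 := h.inn (x (U' v)) (U' v)
    rw [h.inv'] at e2
    change ⟪U (x (U' v)), v⟫_ℂ = _
    rw [e2, ← h1]
    exact h.real _
  rw [e]
  exact ⟨h1, h2⟩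

theorem AU.cj_zero : h.cj (0 : ℋ →L[ℂ] ℋ) = 0 := by
  have := h.cj_scalar 0
  rw [zero_smul] at this
  rw [this]
  have h0 : σ 0 = 0 := by
    have := h.real 0
    simpa using this
  rw [h0, zero_smul]

theorem AU.cj_ne {x : ℋ →L[ℂ] ℋ} (hx : x ≠ 0) : h.cj x ≠ 0 := by
  intro h0
  apply hx
  rw [← h.cj_cj x, h0, h.symm.cj_zero]

variable {H H' : Type} [Group H] [Group H'] {pr : Γ →* H} {pr' : Γ →* H'}
  {S T R : Γ →* (ℋ →L[ℂ] ℋ)} {S' T' R' : Γ →* (ℋ' →L[ℂ] ℋ')}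

theorem AU.qs (hS : ∀ g v, U (S g v) = S' g (U v)) (hT : ∀ g v, U (T g v) = T' g (U v))
    (hR : ∀ g v, U (R g v) = R' g (U v)) {K' : Subgroup H} {K : Subgroup H'} {x : ℋ →L[ℂ] ℋ}
    (hx : Qs pr pr' S T (Set.range R) K' K x) :
    Qs pr pr' S' T' (Set.range R') K' K (h.cj x) := by
  refine ⟨fun g hg => h.cj_comm (hS g) (hx.1 g hg), fun g hg => h.cj_comm (hT g) (hx.2.1 g hg), ?_⟩
  rintro _ ⟨g, rfl⟩
  exact h.cj_comm (hR g) (hx.2.2 _ ⟨g, rfl⟩)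

include h in
theorem AU.inter_symm (hS : ∀ g v, U (S g v) = S' g (U v)) (g : Γ) (v : ℋ') :
    U' (S' g v) = S g (U' v) := by
  have := hS g (U' v)
  rw [h.inv'] at this
  rw [← this, h.inv]

theorem AU.intR (hT : ∀ g v, U (T g v) = T' g (U v)) {K : Subgroup H'} {x : ℋ →L[ℂ] ℋ} {c : ℝ}
    (hx : IntR pr' T K x c) : IntR pr' T' K (h.cj x) c := by
  intro ζ
  have h1 := hx (U' ζ)
  rw [h.norm'] at h1
  refine h1.congr_fun ?_ |> id
  intro q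
  have e1 : T' (q.out)⁻¹ ζ = U (T (q.out)⁻¹ (U' ζ)) := by
    rw [hT, h.inv']
  have e2 : h.cj x (T' (q.out)⁻¹ ζ) = U (x (T (q.out)⁻¹ (U' ζ))) := by
    rw [e1, h.cj_apply, h.inv]
  rw [e2, e1, h.inn, h.re]

include h in
theorem AU.finI [TopologicalSpace H] [TopologicalSpace H']
    (hS : ∀ g v, U (S g v) = S' g (U v)) (hT : ∀ g v, U (T g v) = T' g (U v))
    (hR : ∀ g v, U (R g v) = R' g (U v)) (hf : FinI pr pr' S T (Set.range R)) :
    FinI pr pr' S' T' (Set.range R') := by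
  obtain ⟨K₁, L₁, hK₁, hL₁, x, hx, hx0, hxn, c, hc⟩ := hf
  exact ⟨K₁, L₁, hK₁, hL₁, h.cj x, h.qs hS hT hR hx, h.cj_nonneg hx0, h.cj_ne hxn, c, h.intR hT hc⟩

include h in
theorem AU.ergAt [TopologicalSpace H]
    (hS : ∀ g v, U (S g v) = S' g (U v)) (hT : ∀ g v, U (T g v) = T' g (U v))
    (hR : ∀ g v, U (R g v) = R' g (U v)) (he : ErgAt S T R pr) : ErgAt S' T' R' pr := by
  intro W hW x h1 h2 h3
  have hs := h.symm
  obtain ⟨c, hc⟩ := he W hW (hs.cj x)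
    (fun g hg => hs.cj_comm (h.inter_symm hS g) (h1 g hg))
    (fun g => hs.cj_comm (h.inter_symm hT g) (h2 g))
    (fun g => hs.cj_comm (h.inter_symm hR g) (h3 g))
  refine ⟨σ c, ?_⟩
  have e := hs.cj_cj x
  rw [hc] at e
  rw [← e]
  exact h.cj_scalar c

end transport

end Vale.Agent.P092.H962
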