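import Vale.Agent.P092.H962.MT3
import Vale.Agent.P092.H962.MultiT

/-!
The amplified model: the flip `HH(α, β, γ) → HH(β, α, bar γ)` and the swap
`HH(α, β, γ) → HH(α, γ, β)` as intertwiners; operators on `HH` as operators on `W`.
-/

set_option linter.all false

open scoped InnerProductSpace ENNReal
open Filter Topology ContinuousLinearMap
open Vale.Agent.P092.H160 Vale.Agent.P092.H103 Vale.Agent.P092.SR

namespace Vale.Agent.P092.H962

section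

variable {Γ Λ I J K : Type} [Group Γ] [Group Λ] [Fintype I] [Fintype J] [Fintype K]
  {α : Γ → (Ell2 (I × Λ) →L[ℂ] Ell2 (I × Λ))} {β : Γ → (Ell2 (J × Λ) →L[ℂ] Ell2 (J × Λ))}
  {γ : Γ → (Ell2 (K × Λ) →L[ℂ] Ell2 (K × Λ))}
  (hα : AF α) (hβ : AF β) (hγ : AF γ)

/-- the conjugate family -/
noncomputable abbrev br (γ : Γ → (Ell2 (K × Λ) →L[ℂ] Ell2 (K × Λ))) :
    Γ → (Ell2 (K × Λ) →L[ℂ] Ell2 (K × Λ)) := fun g => H160.bar (γ g)

/-! ### The flip -/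

include hα hβ hγ in
theorem Jf_PT (v : Ell2 (I × ((J × Λ) × (K × Λ)))) :
    Jf (PT α β γ v) = PT β α (br γ) (Jf v) := by
  change Jf (VT J K (α 1) (R1T I K (β 1) (R2T I J (γ 1) v))) =
    VT I K (β 1) (R1T J K (α 1) (R2T J I (H160.bar (γ 1)) (Jf v)))
  rw [Jf_V, Jf_R1, Jf_R2 (hγ.comm 1)]
  exact (congrArg (fun T : Ell2 (J × ((I × Λ) × (K × Λ))) →L[ℂ] Ell2 (J × ((I × Λ) × (K × Λ))) =>
    T (R2T J I (H160.bar (γ 1)) (Jf v))) (comm_VR1 (K := K) (hβ.comm 1) (hα.comm 1))).symm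

include hα hβ hγ in
theorem Jf_mem (w : HH (PT α β γ)) : PT β α (br γ) (Jf (w : Ell2 (I × ((J × Λ) × (K × Λ))))) =
    Jf (w : Ell2 (I × ((J × Λ) × (K × Λ)))) := by
  rw [← Jf_PT hα hβ hγ, show PT α β γ (w : Ell2 (I × ((J × Λ) × (K × Λ)))) = w from w.2]

include hα hβ hγ in
theorem Jf_mem' (w : HH (PT β α (br γ))) :
    PT α β γ (Jf (w : Ell2 (J × ((I × Λ) × (K × Λ))))) =
      Jf (w : Ell2 (J × ((I × Λ) × (K × Λ)))) := by
  rw [← Jf_Jf (PT α β γ (Jf (w : Ell2 (J × ((I × Λ) × (K × Λ)))))), Jf_PT hα hβ hγ, Jf_Jf,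
    show PT β α (br γ) (w : Ell2 (J × ((I × Λ) × (K × Λ)))) = w from w.2]

/-- the flip -/
noncomputable def flU (w : HH (PT α β γ)) : HH (PT β α (br γ)) := ⟨Jf w, Jf_mem hα hβ hγ w⟩

/-- the inverse of the flip -/
noncomputable def flU' (w : HH (PT β α (br γ))) : HH (PT α β γ) := ⟨Jf w, Jf_mem' hα hβ hγ w⟩

theorem flip_AU : AU (fun c => (starRingEnd ℂ) c) (flU hα hβ hγ) (flU' hα hβ hγ) where
  add x y := Subtype.ext (Jf_add _ _)
  add' x y := Subtype.ext (Jf_add _ _)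
  smul c x := Subtype.ext (Jf_smul _ _)
  smul' c x := Subtype.ext (Jf_smul _ _)
  norm x := Jf_norm _
  norm' x := Jf_norm _
  inv x := Subtype.ext (Jf_Jf _)
  inv' x := Subtype.ext (Jf_Jf _)
  ss c := Complex.conj_conj c
  inn x y := by
    rw [Submodule.coe_inner, Submodule.coe_inner]
    change ⟪Jf _, Jf _⟫_ℂ = _
    rw [Jf_inner, inner_conj_symm]
  re c := Complex.conj_re c
  real r := Complex.conj_ofReal r

theorem flU_V (g : Γ) (w : HH (PT α β γ)) :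
    flU hα hβ hγ (V3 hα hβ hγ g w) = A3R hβ hα (AF.bar hγ) g (flU hα hβ hγ w) := by
  apply Subtype.ext
  rw [A3R_val]
  change Jf (V3 hα hβ hγ g w : Ell2 (I × ((J × Λ) × (K × Λ)))) = R1T J K (α g) (Jf _)
  rw [V3_val, Jf_V]

theorem flU_A (g : Γ) (w : HH (PT α β γ)) :
    flU hα hβ hγ (A3R hα hβ hγ g w) = V3 hβ hα (AF.bar hγ) g (flU hα hβ hγ w) := by
  apply Subtype.ext
  rw [V3_val]
  change Jf (A3R hα hβ hγ g w : Ell2 (I × ((J × Λ) × (K × Λ)))) = VT I K (β g) (Jf _)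
  rw [A3R_val, Jf_R1]

theorem flU_B (g : Γ) (w : HH (PT α β γ)) :
    flU hα hβ hγ (B3R hα hβ hγ g w) = B3R hβ hα (AF.bar hγ) g (flU hα hβ hγ w) := by
  apply Subtype.ext
  rw [B3R_val]
  change Jf (B3R hα hβ hγ g w : Ell2 (I × ((J × Λ) × (K × Λ)))) =
    R2T J I (H160.bar (γ g)) (Jf _)
  rw [B3R_val, Jf_R2 (hγ.comm g)]

/-! ### The swap of the legs -/

theorem eF_V {x : Ell2 (I × Λ) →L[ℂ] Ell2 (I × Λ)} (hx : EqM x)
    (v : Ell2 (I × ((J × Λ) × (K × Λ)))) :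
    rei (eF I J K Λ) (VT J K x v) = VT K J x (rei (eF I J K Λ) v) :=
  congrArg (fun T : Ell2 (I × ((J × Λ) × (K × Λ))) →L[ℂ] Ell2 (I × ((K × Λ) × (J × Λ))) => T v)
    (swap_V hx)

theorem eF_R1 (y : Ell2 (J × Λ) →L[ℂ] Ell2 (J × Λ)) (v : Ell2 (I × ((J × Λ) × (K × Λ)))) :
    rei (eF I J K Λ) (R1T I K y v) = R2T I K y (rei (eF I J K Λ) v) :=
  congrArg (fun T : Ell2 (I × ((J × Λ) × (K × Λ))) →L[ℂ] Ell2 (I × ((K × Λ) × (J × Λ))) => T v)
    (swap_R1 y)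

theorem eF_R2 (z : Ell2 (K × Λ) →L[ℂ] Ell2 (K × Λ)) (v : Ell2 (I × ((J × Λ) × (K × Λ)))) :
    rei (eF I J K Λ) (R2T I J z v) = R1T I J z (rei (eF I J K Λ) v) :=
  congrArg (fun T : Ell2 (I × ((J × Λ) × (K × Λ))) →L[ℂ] Ell2 (I × ((K × Λ) × (J × Λ))) => T v)
    (swap_R2 z)

theorem eF_eF (v : Ell2 (I × ((J × Λ) × (K × Λ)))) :
    rei (eF I K J Λ) (rei (eF I J K Λ) v) = v := rei_symm_self (eF I J K Λ) v

include hα in
theorem eF_PT (v : Ell2 (I × ((J × Λ) × (K × Λ)))) :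
    rei (eF I J K Λ) (PT α β γ v) = PT α γ β (rei (eF I J K Λ) v) := by
  change rei (eF I J K Λ) (VT J K (α 1) (R1T I K (β 1) (R2T I J (γ 1) v))) =
    VT K J (α 1) (R1T I J (γ 1) (R2T I K (β 1) (rei (eF I J K Λ) v)))
  rw [eF_V (hα.comm 1), eF_R1, eF_R2]
  congr 1
  exact (congrArg (fun T : Ell2 (I × ((K × Λ) × (J × Λ))) →L[ℂ] Ell2 (I × ((K × Λ) × (J × Λ))) =>
    T (rei (eF I J K Λ) v)) (comm_R1R2 (I := I) (γ 1) (β 1))).symm

include hα in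
theorem eF_mem (w : HH (PT α β γ)) :
    PT α γ β (rei (eF I J K Λ) (w : Ell2 (I × ((J × Λ) × (K × Λ))))) =
      rei (eF I J K Λ) (w : Ell2 (I × ((J × Λ) × (K × Λ)))) := by
  rw [← eF_PT hα, show PT α β γ (w : Ell2 (I × ((J × Λ) × (K × Λ)))) = w from w.2]

/-- the swap -/
noncomputable def swU (w : HH (PT α β γ)) : HH (PT α γ β) :=
  ⟨rei (eF I J K Λ) (w : Ell2 (I × ((J × Λ) × (K × Λ)))), eF_mem hα w⟩

theorem swap_AU : AU (fun c => c) (swU (β := β) (γ := γ) hα) (swU (β := γ) (γ := β) hα) where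
  add x y := Subtype.ext (map_add _ _ _)
  add' x y := Subtype.ext (map_add _ _ _)
  smul c x := Subtype.ext (map_smul _ _ _)
  smul' c x := Subtype.ext (map_smul _ _ _)
  norm x := norm_rei _ _
  norm' x := norm_rei _ _
  inv x := Subtype.ext (eF_eF _)
  inv' x := Subtype.ext (eF_eF _)
  ss c := rfl
  inn x y := inner_rei _ _ _
  re c := rfl
  real r := rfl

theorem swU_V (g : Γ) (w : HH (PT α β γ)) :
    swU hα (V3 hα hβ hγ g w) = V3 hα hγ hβ g (swU hα w) := by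
  apply Subtype.ext
  rw [V3_val]
  change rei (eF I J K Λ) (V3 hα hβ hγ g w : Ell2 (I × ((J × Λ) × (K × Λ)))) =
    VT K J (α g) (rei (eF I J K Λ) _)
  rw [V3_val, eF_V (hα.comm g)]

theorem swU_A (g : Γ) (w : HH (PT α β γ)) :
    swU hα (A3R hα hβ hγ g w) = B3R hα hγ hβ g (swU hα w) := by
  apply Subtype.ext
  rw [B3R_val]
  change rei (eF I J K Λ) (A3R hα hβ hγ g w : Ell2 (I × ((J × Λ) × (K × Λ)))) =
    R2T I K (β g) (rei (eF I J K Λ) _)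
  rw [A3R_val, eF_R1]

theorem swU_B (g : Γ) (w : HH (PT α β γ)) :
    swU hα (B3R hα hβ hγ g w) = A3R hα hγ hβ g (swU hα w) := by
  apply Subtype.ext
  rw [A3R_val]
  change rei (eF I J K Λ) (B3R hα hβ hγ g w : Ell2 (I × ((J × Λ) × (K × Λ)))) =
    R1T I J (γ g) (rei (eF I J K Λ) _)
  rw [B3R_val, eF_R2]

/-! ### Operators on the cut space -/

/-- an operator on the cut space as an operator on the whole space -/
noncomputable def upp (x : HH (PT α β γ) →L[ℂ] HH (PT α β γ)) :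
    Ell2 (I × ((J × Λ) × (K × Λ))) →L[ℂ] Ell2 (I × ((J × Λ) × (K × Λ))) :=
  (HH (PT α β γ)).subtypeL ∘L x ∘L ((PT α β γ).codRestrict (HH (PT α β γ)) fun v =>
    congrArg (fun T : Ell2 (I × ((J × Λ) × (K × Λ))) →L[ℂ] Ell2 (I × ((J × Λ) × (K × Λ))) => T v)
      (PT_three hα hβ hγ).1)

theorem upp_apply (x : HH (PT α β γ) →L[ℂ] HH (PT α β γ)) (v : Ell2 (I × ((J × Λ) × (K × Λ)))) :
    upp hα hβ hγ x v = (x ⟨PT α β γ v, congrArg (fun T : Ell2 (I × ((J × Λ) × (K × Λ))) →L[ℂ]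
      Ell2 (I × ((J × Λ) × (K × Λ))) => T v) (PT_three hα hβ hγ).1⟩ :
        Ell2 (I × ((J × Λ) × (K × Λ)))) := rfl

theorem upp_coe (x : HH (PT α β γ) →L[ℂ] HH (PT α β γ)) (w : HH (PT α β γ)) :
    upp hα hβ hγ x (w : Ell2 (I × ((J × Λ) × (K × Λ)))) = x w := by
  rw [upp_apply]
  congr 2
  exact Subtype.ext w.2

theorem P_upp (x : HH (PT α β γ) →L[ℂ] HH (PT α β γ)) :
    PT α β γ * upp hα hβ hγ x = upp hα hβ hγ x := by
  ext1 v
  exact (x _).2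

theorem upp_P (x : HH (PT α β γ) →L[ℂ] HH (PT α β γ)) :
    upp hα hβ hγ x * PT α β γ = upp hα hβ hγ x := by
  ext1 v
  change upp hα hβ hγ x (PT α β γ v) = upp hα hβ hγ x v
  rw [upp_apply, upp_apply]
  congr 2
  apply Subtype.ext
  exact congrArg (fun T : Ell2 (I × ((J × Λ) × (K × Λ))) →L[ℂ] Ell2 (I × ((J × Λ) × (K × Λ))) =>
    T v) (PT_three hα hβ hγ).1

/-- commutation passes to the whole space -/
theorem upp_comm {x y : HH (PT α β γ) →L[ℂ] HH (PT α β γ)}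
    {Y : Ell2 (I × ((J × Λ) × (K × Λ))) →L[ℂ] Ell2 (I × ((J × Λ) × (K × Λ)))}
    (hY : PT α β γ * Y = Y * PT α β γ)
    (hy : ∀ w : HH (PT α β γ), (y w : Ell2 (I × ((J × Λ) × (K × Λ)))) = Y w) (hxy : x * y = y * x) :
    upp hα hβ hγ x * Y = Y * upp hα hβ hγ x := by
  have hPP : ∀ v, PT α β γ (PT α β γ v) = PT α β γ v := fun v =>
    congrArg (fun T : Ell2 (I × ((J × Λ) × (K × Λ))) →L[ℂ] Ell2 (I × ((J × Λ) × (K × Λ))) => T v)
      (PT_three hα hβ hγ).1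
  ext1 v
  change upp hα hβ hγ x (Y v) = Y (upp hα hβ hγ x v)
  have e1 : upp hα hβ hγ x (Y v) = x (y ⟨PT α β γ v, hPP v⟩) := by
    rw [upp_apply]
    congr 2
    apply Subtype.ext
    rw [hy]
    exact congrArg (fun T : Ell2 (I × ((J × Λ) × (K × Λ))) →L[ℂ]
      Ell2 (I × ((J × Λ) × (K × Λ))) => T v) hY
  have e2 : Y (upp hα hβ hγ x v) = y (x ⟨PT α β γ v, hPP v⟩) := by
    rw [upp_apply, hy]
  rw [e1, e2]
  exact congrArg (fun T : HH (PT α β γ) →L[ℂ] HH (PT α β γ) =>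
    (T ⟨PT α β γ v, hPP v⟩ : Ell2 (I × ((J × Λ) × (K × Λ))))) hxy

/-- scalars -/
theorem scalar_of_upp {x : HH (PT α β γ) →L[ℂ] HH (PT α β γ)} {c : ℂ}
    (h : upp hα hβ hγ x = c • PT α β γ) : x = c • (1 : HH (PT α β γ) →L[ℂ] HH (PT α β γ)) := by
  ext1 w
  apply Subtype.ext
  rw [← upp_coe hα hβ hγ, h]
  change c • PT α β γ (w : Ell2 (I × ((J × Λ) × (K × Λ)))) = c • (w : _)
  rw [show PT α β γ (w : Ell2 (I × ((J × Λ) × (K × Λ)))) = w from w.2]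

end

end Vale.Agent.P092.H962
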