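import Vale.Agent.P092.H103.AFr

/-!
The amplified model (definitions): three frames `α, β, γ` of `Γ` in `M_I, M_J, M_K` over `L(Λ)`.

`W = ℓ²(I × ((J × Λ) × (K × Λ)))`; `VT J K (α g)` is the amplified comultiplication (rows in `I`),
`R1T I K (β g)`, `R2T I J (γ g)` are the target representations of the two legs.
-/

set_option linter.all false

open scoped InnerProductSpace
open Filter Topology ContinuousLinearMap
open Vale.Agent.P092.H160 Vale.Agent.P092.H103

namespace Vale.Agent.P092.H962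

section defs

variable {I J K Λ : Type} [Group Λ]

/-- `(i, ((j, x), (k, y))) ↦ ((i, x), (j, (k, x⁻¹ y)))` -/
def eV (I J K Λ : Type) [Group Λ] : I × ((J × Λ) × (K × Λ)) ≃ (I × Λ) × (J × (K × Λ)) where
  toFun p := ((p.1, p.2.1.2), (p.2.1.1, (p.2.2.1, p.2.1.2⁻¹ * p.2.2.2)))
  invFun q := (q.1.1, ((q.2.1, q.1.2), (q.2.2.1, q.1.2 * q.2.2.2)))
  left_inv p := by simp
  right_inv q := by simp

/-- The amplified comultiplication. -/
noncomputable def VT (J K : Type) (x : Ell2 (I × Λ) →L[ℂ] Ell2 (I × Λ)) :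
    Ell2 (I × ((J × Λ) × (K × Λ))) →L[ℂ] Ell2 (I × ((J × Λ) × (K × Λ))) :=
  rei (eV I J K Λ).symm ∘L (tens x 1 ∘L rei (eV I J K Λ))

/-- `(i, x) ↦ (i, x⁻¹)` -/
def ivE (I Λ : Type) [Group Λ] : I × Λ ≃ I × Λ := Equiv.prodCongr (Equiv.refl I) (Equiv.inv Λ)

/-- `J x J`, `(J ξ)(i, s) = conj ξ(i, s⁻¹)`. -/
noncomputable def JT (x : Ell2 (I × Λ) →L[ℂ] Ell2 (I × Λ)) : Ell2 (I × Λ) →L[ℂ] Ell2 (I × Λ) :=
  rei (ivE I Λ) * (bar x * rei (ivE I Λ))

/-- The target operators of the first leg. -/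
noncomputable def R1T (I K : Type) (y : Ell2 (J × Λ) →L[ℂ] Ell2 (J × Λ)) :
    Ell2 (I × ((J × Λ) × (K × Λ))) →L[ℂ] Ell2 (I × ((J × Λ) × (K × Λ))) :=
  tens 1 (tens (JT y) 1)

/-- The target operators of the second leg. -/
noncomputable def R2T (I J : Type) (z : Ell2 (K × Λ) →L[ℂ] Ell2 (K × Λ)) :
    Ell2 (I × ((J × Λ) × (K × Λ))) →L[ℂ] Ell2 (I × ((J × Λ) × (K × Λ))) :=
  tens 1 (tens 1 (JT z))

end defs

/-! ### Cutting down by a projection -/

section cut

variable {W : Type} [NormedAddCommGroup W] [InnerProductSpace ℂ W] [CompleteSpace W]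

/-- The range of a projection `P`. -/
def HH (P : W →L[ℂ] W) : Submodule ℂ W where
  carrier := {w | P w = w}
  add_mem' {a b} ha hb := by
    change P (a + b) = a + b
    rw [map_add, show P a = a from ha, show P b = b from hb]
  zero_mem' := map_zero P
  smul_mem' c a ha := by
    change P (c • a) = c • a
    rw [map_smul, show P a = a from ha]

theorem mem_HH {P : W →L[ℂ] W} {w : W} : w ∈ HH P ↔ P w = w := Iff.rfl

instance (P : W →L[ℂ] W) : CompleteSpace (HH P) :=
  (isClosed_eq P.continuous continuous_id).completeSpace_coe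

/-- The compression of `x` to the range of `P`. -/
noncomputable def cmp (P : W →L[ℂ] W) (hP : P * P = P) (x : W →L[ℂ] W) : HH P →L[ℂ] HH P :=
  (P ∘L x ∘L (HH P).subtypeL).codRestrict (HH P) fun w => by
    change P (P (x w)) = P (x w)
    exact congrArg (fun T : W →L[ℂ] W => T (x w)) hP

theorem cmp_coe (P : W →L[ℂ] W) (hP : P * P = P) (x : W →L[ℂ] W) (w : HH P) :
    (cmp P hP x w : W) = P (x w) := rfl

end cut

end Vale.Agent.P092.H962
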