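import Vale.Agent.P092.H962.MTD

/-!
The amplified model: algebra, adjoints, commutation, flip and swap, on the level of `W`.
-/

set_option linter.all false

open scoped InnerProductSpace
open Filter Topology ContinuousLinearMap
open Vale.Agent.P092.H160 Vale.Agent.P092.H103

namespace Vale.Agent.P092.H962

section alg

variable {I J K Λ : Type} [Group Λ]

theorem rei_symm_self {X Y : Type} (e : X ≃ Y) (v : Ell2 X) : rei e.symm (rei e v) = v := by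
  rw [rei_rei, Equiv.self_trans_symm, rei_refl]

theorem rei_self_symm {X Y : Type} (e : X ≃ Y) (v : Ell2 Y) : rei e (rei e.symm v) = v := by
  rw [rei_rei, Equiv.symm_trans_self, rei_refl]

theorem VT_apply (x : Ell2 (I × Λ) →L[ℂ] Ell2 (I × Λ)) (v : Ell2 (I × ((J × Λ) × (K × Λ)))) :
    VT J K x v = rei (eV I J K Λ).symm (tens x 1 (rei (eV I J K Λ) v)) := rfl

theorem VT_mul (x y : Ell2 (I × Λ) →L[ℂ] Ell2 (I × Λ)) : VT J K (x * y) = VT J K x * VT J K y := by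
  ext1 v
  change VT J K (x * y) v = VT J K x (VT J K y v)
  rw [VT_apply, VT_apply, VT_apply, rei_self_symm]
  have h : tens (x * y) (1 : Ell2 (J × (K × Λ)) →L[ℂ] Ell2 (J × (K × Λ))) =
      tens x 1 * tens y 1 := by rw [← tens_mul, one_mul]
  rw [h]
  rfl

theorem VT_adj (x : Ell2 (I × Λ) →L[ℂ] Ell2 (I × Λ)) :
    adjoint (VT J K x) = VT J K (adjoint x) := by
  refine (ContinuousLinearMap.eq_adjoint_iff _ _).mpr (fun u v => ?_) |>.symm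
  have h1 : ∀ (a : Ell2 (I × ((J × Λ) × (K × Λ)))) (b : Ell2 ((I × Λ) × (J × (K × Λ)))),
      ⟪rei (eV I J K Λ).symm b, a⟫_ℂ = ⟪b, rei (eV I J K Λ) a⟫_ℂ := by
    intro a b
    rw [← adjoint_rei, adjoint_inner_left]
  have h2 : ∀ (a : Ell2 (I × ((J × Λ) × (K × Λ)))) (b : Ell2 ((I × Λ) × (J × (K × Λ)))),
      ⟪a, rei (eV I J K Λ).symm b⟫_ℂ = ⟪rei (eV I J K Λ) a, b⟫_ℂ := by
    intro a b
    rw [← adjoint_rei, adjoint_inner_right]
  have h3 : tens (adjoint x) (1 : Ell2 (J × (K × Λ)) →L[ℂ] Ell2 (J × (K × Λ))) =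
      adjoint (tens x 1) := by rw [adjoint_tens, adjoint_one]
  rw [VT_apply, VT_apply, h1, h2, h3, adjoint_inner_left]

theorem ivE_symm : (ivE I Λ).symm = ivE I Λ := rfl

theorem rei_ivE_ivE (v : Ell2 (I × Λ)) : rei (ivE I Λ) (rei (ivE I Λ) v) = v := by
  have h := rei_symm_self (ivE I Λ) v
  rwa [ivE_symm] at h

theorem JT_mul (x y : Ell2 (I × Λ) →L[ℂ] Ell2 (I × Λ)) : JT (x * y) = JT x * JT y := by
  ext1 v
  change rei _ (bar (x * y) (rei _ v)) = rei _ (bar x (rei _ (rei _ (bar y (rei _ v)))))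
  rw [rei_ivE_ivE, bar_mul]
  rfl

theorem JT_one : JT (1 : Ell2 (I × Λ) →L[ℂ] Ell2 (I × Λ)) = 1 := by
  ext1 v
  change rei _ (bar 1 (rei _ v)) = v
  rw [bar_one]
  exact rei_ivE_ivE v

theorem JT_adj (x : Ell2 (I × Λ) →L[ℂ] Ell2 (I × Λ)) : adjoint (JT x) = JT (adjoint x) := by
  have h : adjoint (rei (ivE I Λ)) = rei (ivE I Λ) := by rw [adjoint_rei, ivE_symm]
  have h2 : ∀ S T : Ell2 (I × Λ) →L[ℂ] Ell2 (I × Λ), adjoint (S * T) = adjoint T * adjoint S :=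
    fun S T => ContinuousLinearMap.adjoint_comp S T
  rw [JT, h2, h2, h, adjoint_bar, JT, mul_assoc]

theorem R1T_mul (x y : Ell2 (J × Λ) →L[ℂ] Ell2 (J × Λ)) :
    R1T I K (x * y) = R1T I K x * R1T I K y := by
  rw [R1T, R1T, R1T, JT_mul, ← tens_mul, ← tens_mul, one_mul, one_mul]

theorem R2T_mul (x y : Ell2 (K × Λ) →L[ℂ] Ell2 (K × Λ)) :
    R2T I J (x * y) = R2T I J x * R2T I J y := by
  rw [R2T, R2T, R2T, JT_mul, ← tens_mul, ← tens_mul, one_mul, one_mul]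

theorem R1T_adj (x : Ell2 (J × Λ) →L[ℂ] Ell2 (J × Λ)) :
    adjoint (R1T I K x) = R1T I K (adjoint x) := by
  rw [R1T, adjoint_tens, adjoint_tens, JT_adj, adjoint_one, adjoint_one, R1T]

theorem R2T_adj (x : Ell2 (K × Λ) →L[ℂ] Ell2 (K × Λ)) :
    adjoint (R2T I J x) = R2T I J (adjoint x) := by
  rw [R2T, adjoint_tens, adjoint_tens, JT_adj, adjoint_one, adjoint_one, R2T]

theorem comm_R1R2 (x : Ell2 (J × Λ) →L[ℂ] Ell2 (J × Λ)) (y : Ell2 (K × Λ) →L[ℂ] Ell2 (K × Λ)) :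
    R1T I K x * R2T I J y = R2T I J y * R1T I K x := by
  rw [R1T, R2T, ← tens_mul, ← tens_mul, ← tens_mul, ← tens_mul, one_mul, one_mul, mul_one, mul_one,
    one_mul]

/-! ### Coordinates -/

theorem VT_coord (x : Ell2 (I × Λ) →L[ℂ] Ell2 (I × Λ)) (i i' : I) (j j' : J) (k k' : K)
    (a a' b b' : Λ) : VT J K x (dl (i, ((j, a), (k, b)))) (i', ((j', a'), (k', b'))) =
      x (dl (i, a)) (i', a') * (dl (j, (k, a⁻¹ * b)) : Ell2 (J × (K × Λ))) (j', (k', a'⁻¹ * b')) := by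
  rw [VT_apply, rei_dl]
  change tens x 1 (dl ((i, a), (j, (k, a⁻¹ * b)))) ((i', a'), (j', (k', a'⁻¹ * b'))) = _
  rw [tens_dl]
  rfl

theorem JT_coord (y : Ell2 (J × Λ) →L[ℂ] Ell2 (J × Λ)) (j j' : J) (a a' : Λ) :
    JT y (dl (j, a)) (j', a') = (starRingEnd ℂ) (y (dl (j, a⁻¹)) (j', a'⁻¹)) := by
  change bar y (rei (ivE J Λ) (dl (j, a))) (j', a'⁻¹) = _
  rw [rei_dl, bar_dl]
  rfl

theorem R1T_coord (y : Ell2 (J × Λ) →L[ℂ] Ell2 (J × Λ)) (i i' : I) (j j' : J) (k k' : K)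
    (a a' b b' : Λ) : R1T I K y (dl (i, ((j, a), (k, b)))) (i', ((j', a'), (k', b'))) =
      (dl i : Ell2 I) i' * (JT y (dl (j, a)) (j', a') * (dl (k, b) : Ell2 (K × Λ)) (k', b')) := by
  rw [R1T, tens_dl, tens_dl]
  rfl

theorem R2T_coord (z : Ell2 (K × Λ) →L[ℂ] Ell2 (K × Λ)) (i i' : I) (j j' : J) (k k' : K)
    (a a' b b' : Λ) : R2T I J z (dl (i, ((j, a), (k, b)))) (i', ((j', a'), (k', b'))) =
      (dl i : Ell2 I) i' * ((dl (j, a) : Ell2 (J × Λ)) (j', a') * JT z (dl (k, b)) (k', b')) := by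
  rw [R2T, tens_dl, tens_dl]
  rfl

/-- `x` is a matrix over `L(Λ)`. -/
def EqM (x : Ell2 (I × Λ) →L[ℂ] Ell2 (I × Λ)) : Prop := Eqv (FS.mat I Λ).R (FS.mat I Λ).R x

theorem EqM.coef {x : Ell2 (I × Λ) →L[ℂ] Ell2 (I × Λ)} (hx : EqM x) (i i' : I) (a a' c : Λ) :
    x (dl (i, a * c)) (i', a' * c) = x (dl (i, a)) (i', a') := by
  have h1 : (dl (i, a * c) : Ell2 (I × Λ)) = (FS.mat I Λ).R c⁻¹ (dl (i, a)) := by
    rw [FS.R_dl, FS.mat_act, inv_inv]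
  rw [h1, hx, FS.R_val, FS.mat_act, inv_inv, mul_inv_cancel_right]

theorem EqM.coefJ {x : Ell2 (I × Λ) →L[ℂ] Ell2 (I × Λ)} (hx : EqM x) (i i' : I) (a a' c : Λ) :
    JT x (dl (i, c * a)) (i', c * a') = JT x (dl (i, a)) (i', a') := by
  rw [JT_coord, JT_coord, mul_inv_rev, mul_inv_rev, hx.coef]

theorem coef_adj {X : Type} (x : Ell2 X →L[ℂ] Ell2 X) (p q : X) :
    (starRingEnd ℂ) (adjoint x (dl p) q) = x (dl q) p := by
  rw [← inner_dl, adjoint_inner_right, inner_conj_symm, inner_dl]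

theorem EqM.adj {x : Ell2 (I × Λ) →L[ℂ] Ell2 (I × Λ)} (hx : EqM x) : EqM (adjoint x) :=
  (FS.mat I Λ).eqv_adjoint (FS.mat I Λ) hx

theorem dl_val_one {X : Type} {x y : X} (h : (dl x : Ell2 X) y ≠ 0) : y = x := by
  by_contra hne
  exact h (dl_ne hne)

end alg

section comm

variable {I J K Λ : Type} [Group Λ]

/-- `Δ(x)` commutes with the target operators of the first leg. -/
theorem comm_VR1 {x : Ell2 (I × Λ) →L[ℂ] Ell2 (I × Λ)} (hx : EqM x)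
    {y : Ell2 (J × Λ) →L[ℂ] Ell2 (J × Λ)} (hy : EqM y) :
    VT J K x * R1T I K y = R1T I K y * VT J K x := by
  apply op_ext
  intro p
  apply ext_inner_dl
  intro q
  have g1 : VT J K x (R1T I K y (dl p)) q = ⟪VT J K (adjoint x) (dl q), R1T I K y (dl p)⟫_ℂ := by
    rw [← inner_dl, ← VT_adj, adjoint_inner_left]
  have g2 : R1T I K y (VT J K x (dl p)) q = ⟪R1T I K (adjoint y) (dl q), VT J K x (dl p)⟫_ℂ := by
    rw [← inner_dl, ← R1T_adj, adjoint_inner_left]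
  refine g1.trans (Eq.trans ?_ g2.symm)
  clear g1 g2
  rw [inner_eq, inner_eq]
  obtain ⟨i, ⟨j, a⟩, ⟨k, b⟩⟩ := p
  obtain ⟨i', ⟨j', a'⟩, ⟨k', b'⟩⟩ := q
  rw [tsum_eq_single (i, ((j', b * b'⁻¹ * a'), (k, b))),
    tsum_eq_single (i', ((j, b' * b⁻¹ * a), (k', b')))]
  · rw [VT_coord, VT_coord, R1T_coord, R1T_coord, dl_self, dl_self, dl_self, dl_self, map_mul,
      map_mul, map_mul, map_one, coef_adj, JT_coord, ← JT_adj, coef_adj, JT_coord]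
    have e1 : (b * b'⁻¹ * a')⁻¹ * b = a'⁻¹ * b' := by group
    have e2 : (b' * b⁻¹ * a)⁻¹ * b' = a⁻¹ * b := by group
    rw [e1, e2]
    have e3 : x (dl (i, b * b'⁻¹ * a')) (i', a') = x (dl (i, a)) (i', b' * b⁻¹ * a) := by
      rw [← hx.coef i i' (b * b'⁻¹ * a') a' (a'⁻¹ * b' * b⁻¹ * a)]
      congr 2
      · congr 1
        group
    have e4 : y (dl (j, a⁻¹)) (j', (b * b'⁻¹ * a')⁻¹) =
        y (dl (j, (b' * b⁻¹ * a)⁻¹)) (j', a'⁻¹) := by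
      rw [← hy.coef j j' (b' * b⁻¹ * a)⁻¹ a'⁻¹ (b' * b⁻¹)]
      congr 2
      · congr 1
        group
    rw [e3, e4]
    by_cases hk : k = k'
    · subst hk
      rw [dl_self, dl_self, map_one]
      ring
    · have h1 : (dl (j', (k', a'⁻¹ * b')) : Ell2 (J × (K × Λ))) (j', (k, a'⁻¹ * b')) = 0 :=
        dl_ne (by simp [hk])
      have h2 : (dl (j, (k, a⁻¹ * b)) : Ell2 (J × (K × Λ))) (j, (k', a⁻¹ * b)) = 0 :=
        dl_ne (by simp [Ne.symm hk])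
      rw [h1, h2, map_zero]
      ring
  · rintro ⟨i'', ⟨j'', a''⟩, ⟨k'', b''⟩⟩ hne
    rw [VT_coord, R1T_coord]
    by_contra h0
    apply hne
    have g1 : (dl i' : Ell2 I) i'' ≠ 0 := fun h => h0 (by rw [h]; simp)
    have g2 : (dl (k', b') : Ell2 (K × Λ)) (k'', b'') ≠ 0 := fun h => h0 (by rw [h]; simp)
    have g3 : (dl (j, (k, a⁻¹ * b)) : Ell2 (J × (K × Λ))) (j'', (k'', a''⁻¹ * b'')) ≠ 0 :=
      fun h => h0 (by rw [h]; simp)
    have g1 := dl_val_one g1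
    have g2 := dl_val_one g2
    have g3 := dl_val_one g3
    simp only [Prod.mk.injEq] at g2 g3
    obtain ⟨g2, g2'⟩ := g2
    obtain ⟨g3, g3', g3''⟩ := g3
    subst g1 g2 g2' g3
    have : a'' = b'' * b⁻¹ * a := by
      have := congrArg (fun t => b'' * t⁻¹) g3''
      simp only [mul_inv_rev, inv_inv] at this
      rw [mul_inv_cancel_left] at this
      rw [this]
      group
    rw [this]
  · rintro ⟨i'', ⟨j'', a''⟩, ⟨k'', b''⟩⟩ hne
    rw [VT_coord, R1T_coord]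
    by_contra h0
    apply hne
    have g1 : (dl i : Ell2 I) i'' ≠ 0 := fun h => h0 (by rw [h]; simp)
    have g2 : (dl (k, b) : Ell2 (K × Λ)) (k'', b'') ≠ 0 := fun h => h0 (by rw [h]; simp)
    have g3 : (dl (j', (k', a'⁻¹ * b')) : Ell2 (J × (K × Λ))) (j'', (k'', a''⁻¹ * b'')) ≠ 0 :=
      fun h => h0 (by rw [h]; simp)
    have g1 := dl_val_one g1
    have g2 := dl_val_one g2
    have g3 := dl_val_one g3
    simp only [Prod.mk.injEq] at g2 g3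
    obtain ⟨g2, g2'⟩ := g2
    obtain ⟨g3, g3', g3''⟩ := g3
    subst g1 g2 g2' g3
    have : a'' = b'' * b'⁻¹ * a' := by
      have := congrArg (fun t => b'' * t⁻¹) g3''
      simp only [mul_inv_rev, inv_inv] at this
      rw [mul_inv_cancel_left] at this
      rw [this]
      group
    rw [this]

/-! ### The swap of the legs -/

/-- the exchange of the two legs -/
def eF (I J K Λ : Type) : I × ((J × Λ) × (K × Λ)) ≃ I × ((K × Λ) × (J × Λ)) :=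
  Equiv.prodCongr (Equiv.refl I) (Equiv.prodComm _ _)

theorem swap_R1 (y : Ell2 (J × Λ) →L[ℂ] Ell2 (J × Λ)) :
    rei (eF I J K Λ) ∘L R1T I K y = R2T I K y ∘L rei (eF I J K Λ) := by
  apply op_ext
  rintro ⟨i, ⟨j, a⟩, ⟨k, b⟩⟩
  apply ext_inner_dl
  rintro ⟨i', ⟨k', b'⟩, ⟨j', a'⟩⟩
  change R1T I K y (dl (i, ((j, a), (k, b)))) (i', ((j', a'), (k', b'))) =
    R2T I K y (rei (eF I J K Λ) (dl (i, ((j, a), (k, b))))) (i', ((k', b'), (j', a')))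
  rw [rei_dl, R1T_coord]
  change _ = R2T I K y (dl (i, ((k, b), (j, a)))) (i', ((k', b'), (j', a')))
  rw [R2T_coord]
  ring

theorem swap_R2 (z : Ell2 (K × Λ) →L[ℂ] Ell2 (K × Λ)) :
    rei (eF I J K Λ) ∘L R2T I J z = R1T I J z ∘L rei (eF I J K Λ) := by
  apply op_ext
  rintro ⟨i, ⟨j, a⟩, ⟨k, b⟩⟩
  apply ext_inner_dl
  rintro ⟨i', ⟨k', b'⟩, ⟨j', a'⟩⟩
  change R2T I J z (dl (i, ((j, a), (k, b)))) (i', ((j', a'), (k', b'))) =
    R1T I J z (rei (eF I J K Λ) (dl (i, ((j, a), (k, b))))) (i', ((k', b'), (j', a')))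
  rw [rei_dl, R2T_coord]
  change _ = R1T I J z (dl (i, ((k, b), (j, a)))) (i', ((k', b'), (j', a')))
  rw [R1T_coord]
  ring

theorem swap_V {x : Ell2 (I × Λ) →L[ℂ] Ell2 (I × Λ)} (hx : EqM x) :
    rei (eF I J K Λ) ∘L VT J K x = VT K J x ∘L rei (eF I J K Λ) := by
  apply op_ext
  rintro ⟨i, ⟨j, a⟩, ⟨k, b⟩⟩
  apply ext_inner_dl
  rintro ⟨i', ⟨k', b'⟩, ⟨j', a'⟩⟩
  change VT J K x (dl (i, ((j, a), (k, b)))) (i', ((j', a'), (k', b'))) =
    VT K J x (rei (eF I J K Λ) (dl (i, ((j, a), (k, b))))) (i', ((k', b'), (j', a')))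
  rw [rei_dl, VT_coord]
  change _ = VT K J x (dl (i, ((k, b), (j, a)))) (i', ((k', b'), (j', a')))
  rw [VT_coord]
  by_cases h : j' = j ∧ k' = k ∧ a'⁻¹ * b' = a⁻¹ * b
  · obtain ⟨h1, h2, h3⟩ := h
    subst h1 h2
    rw [h3, dl_self]
    have h4 : b'⁻¹ * a' = b⁻¹ * a := by
      have := congrArg (fun t => t⁻¹) h3
      simpa using this
    rw [h4, dl_self, ← hx.coef i i' a a' (a⁻¹ * b)]
    have h5 : a' * (a⁻¹ * b) = b' := by rw [← h3, mul_inv_cancel_left]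
    rw [h5, mul_inv_cancel_left]
  · have h6 : (dl (j, (k, a⁻¹ * b)) : Ell2 (J × (K × Λ))) (j', (k', a'⁻¹ * b')) = 0 := by
      refine dl_ne fun he => h ?_
      simpa using he
    have h7 : (dl (k, (j, b⁻¹ * a)) : Ell2 (K × (J × Λ))) (k', (j', b'⁻¹ * a')) = 0 := by
      refine dl_ne fun he => h ?_
      simp only [Prod.mk.injEq] at he
      refine ⟨he.2.1, he.1, ?_⟩
      have := congrArg (fun t => t⁻¹) he.2.2
      simpa using this
    rw [h6, h7, mul_zero, mul_zero]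

/-- `Δ(x)` commutes with the target operators of the second leg. -/
theorem comm_VR2 {x : Ell2 (I × Λ) →L[ℂ] Ell2 (I × Λ)} (hx : EqM x)
    {z : Ell2 (K × Λ) →L[ℂ] Ell2 (K × Λ)} (hz : EqM z) :
    VT J K x * R2T I J z = R2T I J z * VT J K x := by
  have h := comm_VR1 (J := K) (K := J) hx hz
  ext1 v
  have h1 : ∀ w, rei (eF I J K Λ) (VT J K x w) = VT K J x (rei (eF I J K Λ) w) := fun w =>
    congrArg (fun T : Ell2 (I × ((J × Λ) × (K × Λ))) →L[ℂ] Ell2 (I × ((K × Λ) × (J × Λ))) => T w)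
      (swap_V hx)
  have h2 : ∀ w, rei (eF I J K Λ) (R2T I J z w) = R1T I J z (rei (eF I J K Λ) w) := fun w =>
    congrArg (fun T : Ell2 (I × ((J × Λ) × (K × Λ))) →L[ℂ] Ell2 (I × ((K × Λ) × (J × Λ))) => T w)
      (swap_R2 z)
  have h3 : rei (eF I J K Λ) (VT J K x (R2T I J z v)) =
      rei (eF I J K Λ) (R2T I J z (VT J K x v)) := by
    rw [h1, h2, h2, h1]
    exact congrArg (fun T : Ell2 (I × ((K × Λ) × (J × Λ))) →L[ℂ] Ell2 (I × ((K × Λ) × (J × Λ))) =>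
      T (rei (eF I J K Λ) v)) h
  have h4 := congrArg (rei (eF I J K Λ).symm) h3
  rw [rei_symm_self, rei_symm_self] at h4
  exact h4

/-! ### The flip -/

/-- the flip map `(i, ((j, x), (k, y))) ↦ (j, ((i, x⁻¹), (k, x⁻¹ y)))` -/
def eJ (I J K Λ : Type) [Group Λ] : I × ((J × Λ) × (K × Λ)) ≃ J × ((I × Λ) × (K × Λ)) where
  toFun p := (p.2.1.1, ((p.1, p.2.1.2⁻¹), (p.2.2.1, p.2.1.2⁻¹ * p.2.2.2)))
  invFun p := (p.2.1.1, ((p.1, p.2.1.2⁻¹), (p.2.2.1, p.2.1.2⁻¹ * p.2.2.2)))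
  left_inv p := by simp
  right_inv p := by simp

theorem eJ_symm : (eJ I J K Λ).symm = eJ J I K Λ := rfl

/-- The antiunitary flip. -/
noncomputable def Jf (v : Ell2 (I × ((J × Λ) × (K × Λ)))) : Ell2 (J × ((I × Λ) × (K × Λ))) :=
  cj (rei (eJ I J K Λ) v)

theorem cj_rei {X Y : Type} (e : X ≃ Y) (v : Ell2 X) : cj (rei e v) = rei e (cj v) := by
  rw [← bar_cj, bar_rei]

theorem Jf_add (u v : Ell2 (I × ((J × Λ) × (K × Λ)))) : Jf (u + v) = Jf u + Jf v := by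
  rw [Jf, map_add, cj_add]; rfl

theorem Jf_smul (c : ℂ) (v : Ell2 (I × ((J × Λ) × (K × Λ)))) :
    Jf (c • v) = (starRingEnd ℂ) c • Jf v := by
  rw [Jf, map_smul, cj_smul]; rfl

theorem Jf_norm (v : Ell2 (I × ((J × Λ) × (K × Λ)))) : ‖Jf v‖ = ‖v‖ := by
  rw [Jf, norm_cj, norm_rei]

theorem Jf_Jf (v : Ell2 (I × ((J × Λ) × (K × Λ)))) : Jf (Jf v) = v := by
  rw [Jf, Jf, ← cj_rei, cj_cj]
  have h := rei_symm_self (eJ I J K Λ) v
  rwa [eJ_symm] at h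

theorem Jf_inner (u v : Ell2 (I × ((J × Λ) × (K × Λ)))) : ⟪Jf u, Jf v⟫_ℂ = ⟪v, u⟫_ℂ := by
  rw [Jf, Jf, inner_cj, inner_rei]

/-- conjugation of operators by the flip -/
theorem Jf_op {S : Ell2 (I × ((J × Λ) × (K × Λ))) →L[ℂ] Ell2 (I × ((J × Λ) × (K × Λ)))}
    {T : Ell2 (J × ((I × Λ) × (K × Λ))) →L[ℂ] Ell2 (J × ((I × Λ) × (K × Λ)))}
    (h : ∀ p q, S (dl p) q = (starRingEnd ℂ) (T (dl (eJ I J K Λ p)) (eJ I J K Λ q)))
    (v : Ell2 (I × ((J × Λ) × (K × Λ)))) : Jf (S v) = T (Jf v) := by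
  have h1 : rei (eJ I J K Λ) ∘L bar S = T ∘L rei (eJ I J K Λ) := by
    apply op_ext
    intro p
    change rei (eJ I J K Λ) (bar S (dl p)) = T (rei (eJ I J K Λ) (dl p))
    rw [rei_dl, bar_dl]
    apply ext_inner_dl
    intro q
    change (starRingEnd ℂ) (S (dl p) ((eJ I J K Λ).symm q)) = _
    rw [h, Equiv.apply_symm_apply, Complex.conj_conj]
  have h2 : rei (eJ I J K Λ) (bar S (cj v)) = T (rei (eJ I J K Λ) (cj v)) :=
    congrArg (fun A : Ell2 (I × ((J × Λ) × (K × Λ))) →L[ℂ] Ell2 (J × ((I × Λ) × (K × Λ))) =>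
      A (cj v)) h1
  rw [Jf, Jf, cj_rei, cj_rei, ← bar_cj]
  exact h2

theorem Jf_V (x : Ell2 (I × Λ) →L[ℂ] Ell2 (I × Λ)) (v : Ell2 (I × ((J × Λ) × (K × Λ)))) :
    Jf (VT J K x v) = R1T J K x (Jf v) := by
  refine Jf_op (fun p q => ?_) v
  obtain ⟨i, ⟨j, a⟩, ⟨k, b⟩⟩ := p
  obtain ⟨i', ⟨j', a'⟩, ⟨k', b'⟩⟩ := q
  rw [VT_coord]
  change _ = (starRingEnd ℂ) (R1T J K x (dl (j, ((i, a⁻¹), (k, a⁻¹ * b))))
    (j', ((i', a'⁻¹), (k', a'⁻¹ * b'))))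
  rw [R1T_coord, JT_coord, inv_inv, inv_inv, map_mul, map_mul, Complex.conj_conj]
  by_cases h : j' = j ∧ k' = k ∧ a'⁻¹ * b' = a⁻¹ * b
  · obtain ⟨h1, h2, h3⟩ := h
    subst h1 h2
    rw [h3, dl_self, dl_self, dl_self, map_one]
    ring
  · have h6 : (dl (j, (k, a⁻¹ * b)) : Ell2 (J × (K × Λ))) (j', (k', a'⁻¹ * b')) = 0 := by
      refine dl_ne fun he => h ?_
      simpa using he
    rw [h6, mul_zero]
    by_cases hj : j' = j
    · have h7 : (dl (k, a⁻¹ * b) : Ell2 (K × Λ)) (k', a'⁻¹ * b') = 0 := by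
        refine dl_ne fun he => h ⟨hj, ?_⟩
        simpa using he
      rw [h7, map_zero, mul_zero, mul_zero]
    · rw [dl_ne hj, map_zero, zero_mul]

theorem Jf_R1 (y : Ell2 (J × Λ) →L[ℂ] Ell2 (J × Λ)) (v : Ell2 (I × ((J × Λ) × (K × Λ)))) :
    Jf (R1T I K y v) = VT I K y (Jf v) := by
  have h := Jf_V (J := I) (K := K) y (Jf v)
  rw [Jf_Jf] at h
  rw [← h, Jf_Jf]

theorem Jf_R2 {z : Ell2 (K × Λ) →L[ℂ] Ell2 (K × Λ)} (hz : EqM z)
    (v : Ell2 (I × ((J × Λ) × (K × Λ)))) :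
    Jf (R2T I J z v) = R2T J I (bar z) (Jf v) := by
  refine Jf_op (fun p q => ?_) v
  obtain ⟨i, ⟨j, a⟩, ⟨k, b⟩⟩ := p
  obtain ⟨i', ⟨j', a'⟩, ⟨k', b'⟩⟩ := q
  rw [R2T_coord]
  change _ = (starRingEnd ℂ) (R2T J I (bar z) (dl (j, ((i, a⁻¹), (k, a⁻¹ * b))))
    (j', ((i', a'⁻¹), (k', a'⁻¹ * b'))))
  rw [R2T_coord, JT_coord, JT_coord, bar_dl, cj_apply, Complex.conj_conj, map_mul, map_mul]
  by_cases h : i' = i ∧ j' = j ∧ a' = a
  · obtain ⟨h1, h2, h3⟩ := h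
    subst h1 h2 h3
    have e : z (dl (k, (a'⁻¹ * b)⁻¹)) (k', (a'⁻¹ * b')⁻¹) = z (dl (k, b⁻¹)) (k', b'⁻¹) := by
      rw [← hz.coef k k' b⁻¹ b'⁻¹ a', mul_inv_rev, mul_inv_rev, inv_inv]
    rw [e]
    simp only [dl_self, map_one, one_mul]
  · have h0 : (dl i : Ell2 I) i' * (dl (j, a) : Ell2 (J × Λ)) (j', a') = 0 := by
      by_contra h1
      rcases mul_ne_zero_iff.mp h1 with ⟨h2, h3⟩
      have h4 := dl_val_one h3
      simp only [Prod.mk.injEq] at h4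
      exact h ⟨dl_val_one h2, h4⟩
    have h0' : (dl j : Ell2 J) j' * (dl (i, a⁻¹) : Ell2 (I × Λ)) (i', a'⁻¹) = 0 := by
      by_contra h1
      rcases mul_ne_zero_iff.mp h1 with ⟨h2, h3⟩
      have h4 := dl_val_one h3
      simp only [Prod.mk.injEq, inv_inj] at h4
      exact h ⟨h4.1, dl_val_one h2, h4.2⟩
    rw [← mul_assoc, h0, zero_mul, ← mul_assoc, ← map_mul, h0', map_zero, zero_mul]

theorem bar_bar {X Y : Type} (S : Ell2 X →L[ℂ] Ell2 Y) : bar (bar S) = S := by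
  ext1 v
  rw [bar_apply, bar_apply, cj_cj, cj_cj]

end comm

end Vale.Agent.P092.H962
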