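import Vale.Agent.P092.H103.MainS
import Vale.Agent.P092.H962.MTD

/-!
Lower bound of the heights (all amplifications): a finite family of vectors which is moved by the
source representation, up to a uniformly positive correlation, like by the target representations.
-/

set_option linter.all false

open scoped InnerProductSpace
open Filter Topology ContinuousLinearMap
open Vale.Agent.P092.H160 Vale.Agent.P092.H103

namespace Vale.Agent.P092.H962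

/-! ### Slices and inner products -/

section slices

variable {X Y : Type}

theorem inner_tv_dl (x : X) (u : Ell2 Y) (f : Ell2 (X × Y)) :
    ⟪tv (dl x) u, f⟫_ℂ = ⟪u, sl f x⟫_ℂ := by
  have h1 := hasSum_inner' (tv (dl x) u) f
  have h2 := hasSum_inner' u (sl f x)
  have hi : Function.Injective (fun y : Y => (x, y)) := Prod.mk_right_injective x
  rw [← hi.hasSum_iff] at h1
  · refine h1.unique ?_
    refine h2.congr_fun ?_ |> id
    intro y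
    change f (x, y) * (starRingEnd ℂ) ((dl x : Ell2 X) x * u y) = f (x, y) * (starRingEnd ℂ) (u y)
    rw [dl_self, one_mul]
  · rintro ⟨x', y⟩ hp
    have hx : x' ≠ x := fun h => hp ⟨y, by rw [h]⟩
    change f (x', y) * (starRingEnd ℂ) ((dl x : Ell2 X) x' * u y) = 0
    rw [dl_ne hx, zero_mul, map_zero, mul_zero]

theorem inner_tv_dl' (u : Ell2 X) (y : Y) (f : Ell2 (X × Y)) :
    ⟪tv u (dl y), f⟫_ℂ = ⟪u, sl (sw f) y⟫_ℂ := by
  have h1 : ⟪sw (tv u (dl y)), sw f⟫_ℂ = ⟪tv u (dl y), f⟫_ℂ := inner_rei _ _ _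
  rw [← inner_tv_dl, ← h1, sw_tv]

end slices

/-! ### The amplified comultiplication -/

section model

variable {I J K Λ : Type} [Group Λ]

theorem coeff_bound (x : Ell2 (I × Λ) →L[ℂ] Ell2 (I × Λ)) {M : ℝ} (hM : 0 ≤ M)
    (hx : ∀ z z', ‖(x (dl z)) z'‖ ≤ M) (p : I × ((J × Λ) × (K × Λ))) (i0 : I)
    (u : Ell2 (J × Λ)) (v : Ell2 (K × Λ)) :
    ‖⟪VT J K x (dl p), tv (dl i0) (tv u v)⟫_ℂ‖ ≤ M * (‖u‖ * ‖v‖) := by
  obtain ⟨i, ⟨j, a⟩, ⟨k, b⟩⟩ := p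
  set X : Ell2 (I × Λ) := x (dl (i, a)) with hX
  set q0 : J × (K × Λ) := (j, (k, a⁻¹ * b)) with hq0
  have h1 : VT J K x (dl (i, ((j, a), (k, b)))) = rei (eV I J K Λ).symm (tv X (dl q0)) := by
    change rei (eV I J K Λ).symm (tens x 1 (rei (eV I J K Λ) (dl (i, ((j, a), (k, b)))))) = _
    rw [rei_dl]
    congr 1
    change tens x 1 (dl ((i, a), q0)) = _
    rw [tens_dl]
    rfl
  have h2 : ⟪VT J K x (dl (i, ((j, a), (k, b)))), tv (dl i0) (tv u v)⟫_ℂ =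
      ⟪tv X (dl q0), rei (eV I J K Λ) (tv (dl i0) (tv u v))⟫_ℂ := by
    rw [h1, ← adjoint_rei, adjoint_inner_left]
  rw [h2, inner_tv_dl']
  set h' : Ell2 (I × Λ) := sl (sw (rei (eV I J K Λ) (tv (dl i0) (tv u v)))) q0 with hh'
  have hval : ∀ i' s, h' (i', s) = (dl i0 : Ell2 I) i' * (u (j, s) * v (k, s * (a⁻¹ * b))) := by
    intro i' s
    rfl
  have hdec : h' = tv (dl i0) (sl h' i0) := by
    apply ext_inner_dl
    rintro ⟨i', s⟩
    change h' (i', s) = (dl i0 : Ell2 I) i' * h' (i0, s)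
    rw [hval, hval, dl_self, one_mul]
  have h3 : ‖⟪X, h'⟫_ℂ‖ = ‖⟪sl h' i0, sl X i0⟫_ℂ‖ := by
    have e1 : ⟪h', X⟫_ℂ = ⟪sl h' i0, sl X i0⟫_ℂ := by
      conv_lhs => rw [hdec]
      exact inner_tv_dl _ _ _
    rw [← e1, ← inner_conj_symm, RCLike.norm_conj]
  rw [h3]
  have hsum : Summable fun s : Λ => ‖X (i0, s) * (starRingEnd ℂ) (u (j, s))‖ ^ 2 := by
    refine Summable.of_nonneg_of_le (fun _ => by positivity) (fun s => ?_)
      ((summable_sq (sl u j)).mul_left (M ^ 2))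
    rw [norm_mul, RCLike.norm_conj, mul_pow]
    have := hx (i, a) (i0, s)
    change ‖X (i0, s)‖ ≤ M at this
    change ‖X (i0, s)‖ ^ 2 * ‖u (j, s)‖ ^ 2 ≤ M ^ 2 * ‖u (j, s)‖ ^ 2
    gcongr
  set w : Ell2 Λ := mk2 (fun s => X (i0, s) * (starRingEnd ℂ) (u (j, s))) hsum with hw
  set v' : Ell2 Λ := rho (a⁻¹ * b) (sl v k) with hv'
  have h4 : ⟪sl h' i0, sl X i0⟫_ℂ = ⟪v', w⟫_ℂ := by
    rw [inner_eq, inner_eq]
    congr 1
    funext s
    change X (i0, s) * (starRingEnd ℂ) (h' (i0, s)) =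
      (X (i0, s) * (starRingEnd ℂ) (u (j, s))) * (starRingEnd ℂ) (v' s)
    rw [hval, dl_self, one_mul, map_mul, hv', rho_apply]
    change _ = X (i0, s) * (starRingEnd ℂ) (u (j, s)) *
      (starRingEnd ℂ) (v (k, s * (a⁻¹ * b)))
    ring
  rw [h4]
  have hwn : ‖w‖ ≤ M * ‖u‖ := by
    refine abs_le_of_sq_le_sq' ?_ (by positivity) |>.2
    rw [mul_pow]
    have h5 : ∑' s, ‖w s‖ ^ 2 ≤ ∑' s, M ^ 2 * ‖(sl u j) s‖ ^ 2 := by
      refine hsum.tsum_le_tsum (fun s => ?_) ((summable_sq (sl u j)).mul_left (M ^ 2))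
      change ‖X (i0, s) * (starRingEnd ℂ) (u (j, s))‖ ^ 2 ≤ M ^ 2 * ‖u (j, s)‖ ^ 2
      rw [norm_mul, RCLike.norm_conj, mul_pow]
      have := hx (i, a) (i0, s)
      change ‖X (i0, s)‖ ≤ M at this
      gcongr
    rw [tsum_mul_left, ← norm_sq, ← norm_sq] at h5
    refine h5.trans ?_
    have := norm_sl_le u j
    gcongr
  have hvn : ‖v'‖ ≤ ‖v‖ := by
    rw [hv', norm_rho]
    exact norm_sl_le v k
  calc ‖⟪v', w⟫_ℂ‖ ≤ ‖v'‖ * ‖w‖ := norm_inner_le_norm _ _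
    _ ≤ ‖v‖ * (M * ‖u‖) := by gcongr
    _ = M * (‖u‖ * ‖v‖) := by ring

end model

/-! ### Approximation by finitely many basis vectors -/

theorem approx {Z : Type} {r : ℕ} (ζ : Fin r → Ell2 Z) {κ : ℝ} (hκ : 0 < κ) :
    ∃ c : ℝ, 0 < c ∧ ∀ (V T : Ell2 Z →L[ℂ] Ell2 Z), (∀ u, ‖V u‖ ≤ ‖u‖) → (∀ u, ‖T u‖ ≤ ‖u‖) →
      ∀ M, 0 ≤ M → (∀ p p', ‖⟪V (dl p), T (dl p')⟫_ℂ‖ ≤ M) →
      ∀ i j, κ ≤ ‖⟪V (ζ i), T (ζ j)⟫_ℂ‖ → c ≤ M := by
  classical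
  set C : ℝ := ∑ i, ‖ζ i‖ + 1 with hC
  have hCi : ∀ i, ‖ζ i‖ ≤ C - 1 := by
    intro i
    have := Finset.single_le_sum (f := fun i => ‖ζ i‖) (fun _ _ => norm_nonneg _)
      (Finset.mem_univ i)
    rw [hC]
    linarith
  have hC1 : 1 ≤ C := by
    have : 0 ≤ ∑ i, ‖ζ i‖ := Finset.sum_nonneg fun _ _ => norm_nonneg _
    rw [hC]; linarith
  set ε : ℝ := min 1 (κ / (4 * C)) with hε
  have hε0 : 0 < ε := lt_min one_pos (by positivity)
  have hε1 : ε ≤ 1 := min_le_left _ _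
  have hε2 : ε * (4 * C) ≤ κ := by
    have : ε ≤ κ / (4 * C) := min_le_right _ _
    rwa [le_div_iff₀ (by positivity)] at this
  have hF : ∀ i, ∃ F : Finset Z, ‖ζ i - ∑ p ∈ F, ζ i p • dl p‖ ≤ ε := by
    intro i
    have h := hasSum_dl (ζ i)
    have h1 : Tendsto (fun F : Finset Z => ∑ p ∈ F, ζ i p • (dl p : Ell2 Z)) atTop (𝓝 (ζ i)) := h
    have h2 := (Metric.tendsto_atTop.mp h1) ε hε0
    obtain ⟨F, hF⟩ := h2
    refine ⟨F, ?_⟩
    have h3 := hF F le_rfl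
    rw [dist_eq_norm, norm_sub_rev] at h3
    exact h3.le
  choose F hF using hF
  set y : Fin r → Ell2 Z := fun i => ∑ p ∈ F i, ζ i p • dl p with hy
  set S : ℝ := ∑ i, ∑ p ∈ F i, ‖ζ i p‖ + 1 with hS
  have hS1 : 1 ≤ S := by
    have : 0 ≤ ∑ i, ∑ p ∈ F i, ‖ζ i p‖ :=
      Finset.sum_nonneg fun _ _ => Finset.sum_nonneg fun _ _ => norm_nonneg _
    rw [hS]; linarith
  have hSi : ∀ i, ∑ p ∈ F i, ‖ζ i p‖ ≤ S := by
    intro i
    have := Finset.single_le_sum (f := fun i => ∑ p ∈ F i, ‖ζ i p‖)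
      (fun _ _ => Finset.sum_nonneg fun _ _ => norm_nonneg _) (Finset.mem_univ i)
    rw [hS]
    linarith
  have hyn : ∀ i, ‖y i‖ ≤ C := by
    intro i
    have h1 : ‖y i‖ ≤ ‖ζ i‖ + ‖ζ i - y i‖ := by
      have := norm_sub_le (ζ i) (ζ i - y i)
      rwa [sub_sub_cancel] at this
    have h2 := hF i
    have h3 := hCi i
    linarith
  refine ⟨κ / (2 * S ^ 2), by positivity, fun V T hV hT M hM hb i j hk => ?_⟩
  have h1 : ⟪V (ζ i), T (ζ j)⟫_ℂ = ⟪V (ζ i - y i), T (ζ j)⟫_ℂ + ⟪V (y i), T (ζ j - y j)⟫_ℂ +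
      ⟪V (y i), T (y j)⟫_ℂ := by
    rw [map_sub, map_sub, inner_sub_left, inner_sub_right]
    ring
  have e1 : ‖⟪V (ζ i - y i), T (ζ j)⟫_ℂ‖ ≤ ε * C := by
    refine (norm_inner_le_norm _ _).trans ?_
    have := (hV (ζ i - y i)).trans (hF i)
    have h2 := (hT (ζ j)).trans ((hCi j).trans (by linarith : C - 1 ≤ C))
    gcongr
  have e2 : ‖⟪V (y i), T (ζ j - y j)⟫_ℂ‖ ≤ C * ε := by
    refine (norm_inner_le_norm _ _).trans ?_
    have := (hT (ζ j - y j)).trans (hF j)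
    have h2 := (hV (y i)).trans (hyn i)
    gcongr
  have e3 : ‖⟪V (y i), T (y j)⟫_ℂ‖ ≤ S * S * M := by
    have h2 : ⟪V (y i), T (y j)⟫_ℂ = ∑ p ∈ F i, ∑ p' ∈ F j,
        (starRingEnd ℂ) (ζ i p) * (ζ j p' * ⟪V (dl p), T (dl p')⟫_ℂ) := by
      rw [hy]
      simp only [map_sum, map_smul]
      rw [sum_inner]
      refine Finset.sum_congr rfl fun p _ => ?_
      rw [inner_sum]
      refine Finset.sum_congr rfl fun p' _ => ?_
      rw [inner_smul_left, inner_smul_right]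
    rw [h2]
    refine (norm_sum_le _ _).trans ?_
    calc ∑ p ∈ F i, ‖∑ p' ∈ F j, (starRingEnd ℂ) (ζ i p) * (ζ j p' * ⟪V (dl p), T (dl p')⟫_ℂ)‖
        ≤ ∑ p ∈ F i, ∑ p' ∈ F j, ‖ζ i p‖ * (‖ζ j p'‖ * M) := by
          refine Finset.sum_le_sum fun p _ => (norm_sum_le _ _).trans ?_
          refine Finset.sum_le_sum fun p' _ => ?_
          rw [norm_mul, norm_mul, RCLike.norm_conj]
          have := hb p p'
          gcongr
      _ = (∑ p ∈ F i, ‖ζ i p‖) * ((∑ p' ∈ F j, ‖ζ j p'‖) * M) := by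
          rw [Finset.sum_mul]
          refine Finset.sum_congr rfl fun p _ => ?_
          rw [Finset.sum_mul, Finset.mul_sum]
      _ ≤ S * (S * M) := by
          have h3 := hSi i
          have h4 := hSi j
          have h5 : 0 ≤ ∑ p ∈ F i, ‖ζ i p‖ := Finset.sum_nonneg fun _ _ => norm_nonneg _
          have h6 : 0 ≤ ∑ p' ∈ F j, ‖ζ j p'‖ := Finset.sum_nonneg fun _ _ => norm_nonneg _
          gcongr
      _ = S * S * M := by ring
  have h7 : κ ≤ ε * C + C * ε + S * S * M := by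
    refine hk.trans ?_
    rw [h1]
    exact (norm_add_le _ _).trans (add_le_add ((norm_add_le _ _).trans (add_le_add e1 e2)) e3)
  have h8 : κ ≤ 2 * S ^ 2 * M := by nlinarith
  rw [div_le_iff₀ (by positivity)]
  linarith

/-! ### The lower bound of the heights -/

theorem norm_tens_apply_le {X Y X' Y' : Type} {A : Ell2 X →L[ℂ] Ell2 X'}
    {B : Ell2 Y →L[ℂ] Ell2 Y'} (hA : ‖A‖ ≤ 1) (hB : ‖B‖ ≤ 1) (f : Ell2 (X × Y)) :
    ‖tens A B f‖ ≤ ‖f‖ := by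
  have h1 : ‖ampR X B f‖ ≤ ‖f‖ := by
    refine (norm_ampF_le B f).trans ?_
    calc ‖B‖ * ‖f‖ ≤ 1 * ‖f‖ := by gcongr
      _ = ‖f‖ := one_mul _
  have h2 : ∀ w : Ell2 (Y' × X), ‖ampR Y' A w‖ ≤ ‖w‖ := by
    intro w
    refine (norm_ampF_le A w).trans ?_
    calc ‖A‖ * ‖w‖ ≤ 1 * ‖w‖ := by gcongr
      _ = ‖w‖ := one_mul _
  have h3 : ‖tens A B f‖ = ‖ampR Y' A (sw (ampR X B f))‖ := norm_rei _ _
  have h4 : ‖sw (ampR X B f)‖ = ‖ampR X B f‖ := norm_rei _ _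
  rw [h3]
  exact (h2 _).trans (h4.le.trans h1)

theorem norm_one_le' {X : Type} : ‖(1 : Ell2 X →L[ℂ] Ell2 X)‖ ≤ 1 := ContinuousLinearMap.norm_id_le

theorem norm_VT_apply_le {I Λ : Type} [Group Λ] (J K : Type)
    {x : Ell2 (I × Λ) →L[ℂ] Ell2 (I × Λ)} (hx : ‖x‖ ≤ 1)
    (f : Ell2 (I × ((J × Λ) × (K × Λ)))) : ‖VT J K x f‖ ≤ ‖f‖ := by
  change ‖rei (eV I J K Λ).symm (tens x 1 (rei (eV I J K Λ) f))‖ ≤ _
  rw [norm_rei]
  refine (norm_tens_apply_le hx norm_one_le' _).trans ?_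
  rw [norm_rei]

section final

variable {Γ Λ I : Type} [Group Γ] [Group Λ] [Fintype I]
  {α : Γ → (Ell2 (I × Λ) →L[ℂ] Ell2 (I × Λ))}

theorem q4_nonneg (g : Γ) : 0 ≤ q4 α g :=
  Finset.sum_nonneg fun _ _ => tsum_nonneg fun _ => by positivity

theorem al_norm (hα : AF α) (g : Γ) : ‖α g‖ ≤ 1 :=
  ContinuousLinearMap.opNorm_le_bound _ zero_le_one fun v => by
    rw [one_mul]; exact hα.tgt.norm_le g v

theorem coeff_le (hα : AF α) (g : Γ) (z z' : I × Λ) :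
    ‖(α g (dl z)) z'‖ ≤ √(√(q4 α g)) := by
  obtain ⟨i, a⟩ := z
  have h0 : (α g (dl (i, a))) z' = (α g (dl (i, 1))) ((FS.mat I Λ).act a z') := by
    rw [FS.mat_dl, hα.comm g, FS.R_val, inv_inv]
  rw [h0]
  set w := (α g (dl (i, 1))) ((FS.mat I Λ).act a z') with hw
  have h1 : ‖w‖ ^ 4 ≤ ∑' s, ‖(α g (dl (i, 1))) s‖ ^ 4 :=
    (summable_four (α g (dl (i, 1)))).le_tsum _ fun _ _ => by positivity
  have h2 : ∑' s, ‖(α g (dl (i, 1))) s‖ ^ 4 ≤ q4 α g :=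
    Finset.single_le_sum (f := fun i : I => ∑' s, ‖(α g (dl (i, 1))) s‖ ^ 4)
      (fun _ _ => tsum_nonneg fun _ => by positivity) (Finset.mem_univ i)
  refine Real.le_sqrt_of_sq_le (Real.le_sqrt_of_sq_le ?_)
  rw [← pow_mul]
  exact h1.trans h2

/-- **Height bound**: finitely many vectors, and for every `g` a uniformly positive correlation of
the amplified comultiplication with a product of contractions of the two legs. -/
theorem hb (hα : AF α) {J K : Type} {r : ℕ} (ζ : Fin r → Ell2 (I × ((J × Λ) × (K × Λ)))) {κ : ℝ}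
    (hκ : 0 < κ)
    (h : ∀ g, ∃ i j, ∃ (A : Ell2 (J × Λ) →L[ℂ] Ell2 (J × Λ)) (B : Ell2 (K × Λ) →L[ℂ] Ell2 (K × Λ)),
      ‖A‖ ≤ 1 ∧ ‖B‖ ≤ 1 ∧ κ ≤ ‖⟪VT J K (α g) (ζ i), tens 1 (tens A B) (ζ j)⟫_ℂ‖) :
    ∃ c : ℝ, 0 < c ∧ ∀ g, c ≤ q4 α g := by
  obtain ⟨c, hc, H⟩ := approx ζ hκ
  refine ⟨c ^ 4, by positivity, fun g => ?_⟩
  obtain ⟨i, j, A, B, hA, hB, hk⟩ := h g
  have h1 : c ≤ √(√(q4 α g)) := by
    refine H (VT J K (α g)) (tens 1 (tens A B)) (norm_VT_apply_le J K (al_norm hα g))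
      (norm_tens_apply_le norm_one_le' (ContinuousLinearMap.opNorm_le_bound _ zero_le_one fun v => ?_))
      _ (Real.sqrt_nonneg _) (fun p p' => ?_) i j hk
    · rw [one_mul]
      exact norm_tens_apply_le hA hB v
    · obtain ⟨i0, y, z⟩ := p'
      have h2 : tens (1 : Ell2 I →L[ℂ] Ell2 I) (tens A B) (dl (i0, (y, z))) =
          tv (dl i0) (tv (A (dl y)) (B (dl z))) := by
        rw [tens_dl, tens_dl]
        rfl
      rw [h2]
      refine (coeff_bound (α g) (Real.sqrt_nonneg _) (coeff_le hα g) p i0 _ _).trans ?_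
      have h3 : ‖A (dl y)‖ ≤ 1 := by
        refine (A.le_opNorm _).trans ?_
        rw [norm_dl, mul_one]
        exact hA
      have h4 : ‖B (dl z)‖ ≤ 1 := by
        refine (B.le_opNorm _).trans ?_
        rw [norm_dl, mul_one]
        exact hB
      calc √(√(q4 α g)) * (‖A (dl y)‖ * ‖B (dl z)‖) ≤ √(√(q4 α g)) * (1 * 1) := by gcongr
        _ = √(√(q4 α g)) := by rw [mul_one, mul_one]
  have h2 : c ^ 4 ≤ (√(√(q4 α g))) ^ 4 := by gcongr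
  have h3 : (√(√(q4 α g))) ^ 4 = q4 α g := by
    rw [show (4 : ℕ) = 2 * 2 from rfl, pow_mul, Real.sq_sqrt (Real.sqrt_nonneg _),
      Real.sq_sqrt (q4_nonneg g)]
  rwa [h3] at h2

end final

/-- The height bound in the form of the final statement. -/
theorem hb_can {Γ Λ : Type} [Group Γ] [Group Λ] {n : ℕ} {p : St.MOp n Λ}
    (hΓ : ∀ g : Γ, g ≠ 1 → Set.Infinite {y : Γ | ∃ h, y = h * g * h⁻¹})
    (hΛ : ∀ s : Λ, s ≠ 1 → Set.Infinite {y : Λ | ∃ h, y = h * s * h⁻¹}) (hp : St.IsProj p)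
    (θ : St.CornerIso Γ Λ n p) {J K : Type} {r : ℕ}
    (ζ : Fin r → Ell2 (Fin n × ((J × Λ) × (K × Λ)))) {κ : ℝ} (hκ : 0 < κ)
    (h : ∀ g, ∃ i j, ∃ (A : Ell2 (J × Λ) →L[ℂ] Ell2 (J × Λ)) (B : Ell2 (K × Λ) →L[ℂ] Ell2 (K × Λ)),
      ‖A‖ ≤ 1 ∧ ‖B‖ ≤ 1 ∧ κ ≤ ‖⟪VT J K (alf θ g) (ζ i), tens 1 (tens A B) (ζ j)⟫_ℂ‖) :
    St.mtr p = 1 ∧ St.CanonicalM θ := by
  rw [st_iff hΓ hΛ hp θ]
  simp only [q4_alf hΓ θ]
  exact hb (af_of hΓ hp θ) ζ hκ h

end Vale.Agent.P092.H962
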