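import Vale.Agent.P092.H911.TrStmt

/-!
The trace of the source representation: if `R₁ × R₂` and `V × R₂` have finite Parseval families and
`Γ` is ICC, then `∑ ⟪ξ k, V g (ξ k)⟫ = 0` for `g ≠ 1`.
-/

set_option linter.all false

open scoped InnerProductSpace
open Filter Topology ContinuousLinearMap

namespace Vale.Agent.P092.H962

open Vale.Agent.P092.H160 Vale.Agent.P092.SR

variable {ι ι' Γ ℋ : Type} [Fintype ι] [Fintype ι'] [Group Γ] [NormedAddCommGroup ℋ]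
  [InnerProductSpace ℂ ℋ] [CompleteSpace ℋ] {V R₁ R₂ : Γ →* (ℋ →L[ℂ] ℋ)} {ξ : ι → ℋ} {ξ' : ι' → ℋ}

theorem V_norm (hadj : ∀ g, adjoint (V g) = V g⁻¹) (g : Γ) (v : ℋ) : ‖V g v‖ = ‖v‖ := by
  have h1 : ⟪V g v, V g v⟫_ℂ = ⟪v, v⟫_ℂ := by
    rw [← adjoint_inner_right, hadj]
    have h2 : V g⁻¹ (V g v) = v := by
      have h3 : V g⁻¹ * V g = 1 := by rw [← map_mul, inv_mul_cancel, map_one]
      exact congrArg (fun T : ℋ →L[ℂ] ℋ => T v) h3
    rw [h2]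
  rw [inner_self_eq_norm_sq_to_K, inner_self_eq_norm_sq_to_K] at h1
  have h2 : ‖V g v‖ ^ 2 = ‖v‖ ^ 2 := by exact_mod_cast h1
  exact (pow_left_inj₀ (norm_nonneg _) (norm_nonneg _) two_ne_zero).mp h2

/-- the coefficients of `V` tend to zero -/
theorem coef_c0 (h' : Tri R₁ V R₂ ξ') (η η' : ℋ) :
    Tendsto (fun g => ⟪η, V g η'⟫_ℂ) cofinite (𝓝 0) := by
  set S : Set ℋ := Set.range fun p : ι' × Γ × Γ => V p.2.1 (R₂ p.2.2 (ξ' p.1)) with hS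
  have hfr : ∀ (p : ι' × Γ × Γ),
      Tendsto (fun g => ⟪η, V g (V p.2.1 (R₂ p.2.2 (ξ' p.1)))⟫_ℂ) cofinite (𝓝 0) := by
    rintro ⟨l, a, b⟩
    have h1 := (h'.frame η).summable
    have hinj : Function.Injective fun g : Γ => ((l, g * a, b) : ι' × Γ × Γ) := by
      intro g h hgh
      simp only [Prod.mk.injEq, true_and, and_true] at hgh
      exact mul_right_cancel hgh
    have h2 := (h1.comp_injective hinj).tendsto_cofinite_zero
    have h3 : Tendsto (fun g => ‖⟪η, V g (V a (R₂ b (ξ' l)))⟫_ℂ‖) cofinite (𝓝 0) := by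
      have h4 := (Real.continuous_sqrt.tendsto 0).comp h2
      rw [Real.sqrt_zero] at h4
      refine h4.congr fun g => ?_
      change √(‖⟪V (g * a) (R₂ b (ξ' l)), η⟫_ℂ‖ ^ 2) = _
      rw [Real.sqrt_sq (norm_nonneg _), norm_inner_symm, map_mul]
      rfl
    exact tendsto_zero_iff_norm_tendsto_zero.mpr h3
  have hspan : ∀ y ∈ Submodule.span ℂ S,
      Tendsto (fun g => ⟪η, V g y⟫_ℂ) cofinite (𝓝 0) := by
    intro y hy
    refine Submodule.span_induction ?_ ?_ ?_ ?_ hy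
    · rintro _ ⟨p, rfl⟩
      exact hfr p
    · simp only [map_zero, inner_zero_right]
      exact tendsto_const_nhds
    · intro x y _ _ hx hy
      have := hx.add hy
      rw [add_zero] at this
      refine this.congr fun g => ?_
      rw [map_add, inner_add_right]
    · intro c x _ hx
      have := hx.const_mul c
      rw [mul_zero] at this
      refine this.congr fun g => ?_
      rw [map_smul, inner_smul_right]
  have hdense : (Submodule.span ℂ S).topologicalClosure = ⊤ := by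
    rw [Submodule.topologicalClosure_eq_top_iff, Submodule.eq_bot_iff]
    intro v hv
    have h1 := h'.frame v
    have h2 : (fun p : ι' × Γ × Γ => ‖⟪V p.2.1 (R₂ p.2.2 (ξ' p.1)), v⟫_ℂ‖ ^ 2) = fun _ => 0 := by
      funext p
      have : ⟪V p.2.1 (R₂ p.2.2 (ξ' p.1)), v⟫_ℂ = 0 :=
        (Submodule.mem_orthogonal _ _).mp hv _ (Submodule.subset_span ⟨p, rfl⟩)
      rw [this, norm_zero]
      ring
    rw [h2] at h1
    have h3 := h1.unique hasSum_zero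
    exact norm_eq_zero.mp ((pow_eq_zero_iff two_ne_zero).mp h3)
  rw [Metric.tendsto_nhds]
  intro ε hε
  have hmem : η' ∈ (Submodule.span ℂ S).topologicalClosure := by rw [hdense]; trivial
  have hδ : 0 < ε / (2 * (‖η‖ + 1)) := by positivity
  obtain ⟨y, hy, hyd⟩ := Metric.mem_closure_iff.mp hmem _ hδ
  have h1 := (Metric.tendsto_nhds.mp (hspan y hy)) (ε / 2) (by positivity)
  filter_upwards [h1] with g hg
  rw [dist_zero_right] at hg ⊢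
  have h2 : ⟪η, V g η'⟫_ℂ = ⟪η, V g (η' - y)⟫_ℂ + ⟪η, V g y⟫_ℂ := by
    rw [map_sub, inner_sub_right]; ring
  have h3 : ‖⟪η, V g (η' - y)⟫_ℂ‖ ≤ ‖η‖ * (ε / (2 * (‖η‖ + 1))) := by
    refine (norm_inner_le_norm _ _).trans ?_
    rw [V_norm h'.adj₁]
    rw [dist_eq_norm] at hyd
    gcongr
  have h4 : ‖η‖ * (ε / (2 * (‖η‖ + 1))) ≤ ε / 2 := by
    have h5 : ‖η‖ * (ε / (2 * (‖η‖ + 1))) = (ε / 2) * (‖η‖ / (‖η‖ + 1)) := by
      field_simp
    rw [h5]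
    have h6 : ‖η‖ / (‖η‖ + 1) ≤ 1 := by
      rw [div_le_one (by positivity)]; linarith
    nlinarith
  calc ‖⟪η, V g η'⟫_ℂ‖ ≤ ‖⟪η, V g (η' - y)⟫_ℂ‖ + ‖⟪η, V g y⟫_ℂ‖ := by
        rw [h2]; exact norm_add_le _ _
    _ < ε := by linarith

/-- the trace property without the sum over `Γ` -/
theorem trace_N (hT : Tri V R₁ R₂ ξ) {x : ℋ →L[ℂ] ℋ} (h1 : ∀ g, x * R₁ g = R₁ g * x)
    (h2 : ∀ g, x * R₂ g = R₂ g * x) : ∑ k, ‖x (ξ k)‖ ^ 2 = ∑ k, ‖adjoint x (ξ k)‖ ^ 2 := by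
  haveI : Subsingleton (Γ ⧸ (⊤ : Subgroup Γ)) := QuotientGroup.subsingleton_quotient_top
  haveI : Unique (Γ ⧸ (⊤ : Subgroup Γ)) := Unique.mk' _
  have hadj : ∀ g, adjoint x * R₁ g = R₁ g * adjoint x := by
    intro g
    have h3 := congrArg adjoint (h1 g⁻¹)
    have h4 : ∀ S T : ℋ →L[ℂ] ℋ, adjoint (S * T) = adjoint T * adjoint S :=
      fun S T => ContinuousLinearMap.adjoint_comp S T
    rw [h4, h4, hT.adj₁, inv_inv] at h3
    exact h3.symm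
  have key : ∀ y : ℋ →L[ℂ] ℋ, (∀ g, y * R₁ g = R₁ g * y) → ∀ c : ℝ,
      HasSum (fun p : ι × (Γ ⧸ (⊤ : Subgroup Γ)) => ‖y (R₁ (p.2.out)⁻¹ (ξ p.1))‖ ^ 2) c ↔
        ∑ k, ‖y (ξ k)‖ ^ 2 = c := by
    intro y hy c
    have e1 : (fun p : ι × (Γ ⧸ (⊤ : Subgroup Γ)) => ‖y (R₁ (p.2.out)⁻¹ (ξ p.1))‖ ^ 2) =
        fun p : ι × (Γ ⧸ (⊤ : Subgroup Γ)) => ‖y (ξ p.1)‖ ^ 2 := by
      funext p
      have e2 : y (R₁ (p.2.out)⁻¹ (ξ p.1)) = R₁ (p.2.out)⁻¹ (y (ξ p.1)) :=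
        congrArg (fun T : ℋ →L[ℂ] ℋ => T (ξ p.1)) (hy _)
      rw [e2, V_norm hT.adj₁]
    rw [e1]
    have e3 : HasSum (fun p : ι × (Γ ⧸ (⊤ : Subgroup Γ)) => ‖y (ξ p.1)‖ ^ 2)
        (∑ k, ‖y (ξ k)‖ ^ 2) := by
      have e4 := hasSum_fintype (fun k : ι => ‖y (ξ k)‖ ^ 2)
      exact ((Equiv.prodUnique ι (Γ ⧸ (⊤ : Subgroup Γ))).hasSum_iff
        (f := fun k : ι => ‖y (ξ k)‖ ^ 2)).mpr e4
    exact ⟨fun h => e3.unique h, fun h => h ▸ e3⟩
  have h5 := H911.trStmt V R₁ R₂ ξ hT ⊤ x (fun g _ => h1 g) h2 _ ((key x h1 _).mpr rfl)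
  exact ((key _ hadj _).mp h5).symm

theorem tr_conj (hT : Tri V R₁ R₂ ξ) (g h : Γ) :
    ∑ k, ⟪ξ k, V (h * g * h⁻¹) (ξ k)⟫_ℂ = ∑ k, ⟪ξ k, V g (ξ k)⟫_ℂ := by
  have hVm : ∀ a b v, V a (V b v) = V (a * b) v := fun a b v => by
    rw [map_mul]; rfl
  have key : ∀ z : ℂ, (z * ∑ k, ⟪ξ k, V (h * g * h⁻¹) (ξ k)⟫_ℂ).re =
      (z * ∑ k, ⟪ξ k, V g (ξ k)⟫_ℂ).re := by
    intro z
    set x : ℋ →L[ℂ] ℋ := V h * (1 + z • V g) with hx
    have c1 : ∀ a, x * R₁ a = R₁ a * x := fun a =>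
      (Commute.mul_left (hT.comm₁ h a)
        ((Commute.one_left _).add_left (Commute.smul_left (hT.comm₁ g a) z)) : Commute x (R₁ a))
    have c2 : ∀ a, x * R₂ a = R₂ a * x := fun a =>
      (Commute.mul_left (hT.comm₂ h a)
        ((Commute.one_left _).add_left (Commute.smul_left (hT.comm₂ g a) z)) : Commute x (R₂ a))
    have h1 := trace_N hT c1 c2
    have e1 : ∀ v, ‖x v‖ ^ 2 = (1 + ‖z‖ ^ 2) * ‖v‖ ^ 2 + 2 * (z * ⟪v, V g v⟫_ℂ).re := by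
      intro v
      change ‖V h (v + z • V g v)‖ ^ 2 = _
      rw [V_norm hT.adjV, norm_add_sq (𝕜 := ℂ), norm_smul, V_norm hT.adjV, inner_smul_right]
      change ‖v‖ ^ 2 + 2 * (z * ⟪v, V g v⟫_ℂ).re + (‖z‖ * ‖v‖) ^ 2 = _
      ring
    have e2 : ∀ v, ‖adjoint x v‖ ^ 2 =
        (1 + ‖z‖ ^ 2) * ‖v‖ ^ 2 + 2 * (z * ⟪v, V (h * g * h⁻¹) v⟫_ℂ).re := by
      intro v
      have e3 : adjoint x v = V h⁻¹ v + (starRingEnd ℂ) z • V g⁻¹ (V h⁻¹ v) := by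
        refine ext_inner_left ℂ fun w => ?_
        rw [adjoint_inner_right]
        change ⟪V h (w + z • V g w), v⟫_ℂ = _
        rw [← adjoint_inner_right, hT.adjV, inner_add_left, inner_smul_left, inner_add_right,
          inner_smul_right, ← adjoint_inner_right (V g), hT.adjV]
      rw [e3, norm_add_sq (𝕜 := ℂ), norm_smul, V_norm hT.adjV g⁻¹, V_norm hT.adjV h⁻¹,
        inner_smul_right, RCLike.norm_conj]
      have e4 : (⟪V h⁻¹ v, V g⁻¹ (V h⁻¹ v)⟫_ℂ) = (starRingEnd ℂ) ⟪v, V (h * g * h⁻¹) v⟫_ℂ := by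
        rw [inner_conj_symm, ← hT.adjV g, adjoint_inner_right, ← hT.adjV h, adjoint_inner_right,
          hT.adjV, hVm, hVm]
      rw [e4, ← map_mul]
      change ‖v‖ ^ 2 + 2 * ((starRingEnd ℂ) (z * ⟪v, V (h * g * h⁻¹) v⟫_ℂ)).re +
        (‖z‖ * ‖v‖) ^ 2 = _
      rw [Complex.conj_re]
      ring
    simp only [e1, e2] at h1
    rw [Finset.sum_add_distrib, Finset.sum_add_distrib] at h1
    have h2 := add_left_cancel h1
    rw [← Finset.mul_sum, ← Finset.mul_sum] at h2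
    have h3 : ∀ f : ι → ℂ, ∑ k, (z * f k).re = (z * ∑ k, f k).re := by
      intro f
      rw [Finset.mul_sum, Complex.re_sum]
    rw [h3, h3] at h2
    linarith
  apply Complex.ext
  · have := key 1
    rwa [one_mul, one_mul] at this
  · have := key Complex.I
    simpa using this

/-- **The trace of the source representation.** -/
theorem tr0 (hΓ : ∀ g : Γ, g ≠ 1 → Set.Infinite {y : Γ | ∃ h, y = h * g * h⁻¹})
    (hT : Tri V R₁ R₂ ξ) (hT' : Tri R₁ V R₂ ξ') (g : Γ) (hg : g ≠ 1) :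
    ∑ k, ⟪ξ k, V g (ξ k)⟫_ℂ = 0 := by
  by_contra hne
  have h1 : Tendsto (fun g => ∑ k, ⟪ξ k, V g (ξ k)⟫_ℂ) cofinite (𝓝 0) := by
    have := tendsto_finset_sum (Finset.univ : Finset ι)
      (fun k _ => coef_c0 hT' (ξ k) (ξ k))
    simpa using this
  have h2 := (Metric.tendsto_nhds.mp h1) ‖∑ k, ⟪ξ k, V g (ξ k)⟫_ℂ‖ (norm_pos_iff.mpr hne)
  rw [eventually_cofinite] at h2
  apply hΓ g hg
  refine h2.subset ?_
  rintro _ ⟨h, rfl⟩
  change ¬ dist (∑ k, ⟪ξ k, V (h * g * h⁻¹) (ξ k)⟫_ℂ) 0 < _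
  rw [tr_conj hT, dist_zero_right]
  exact lt_irrefl _

end Vale.Agent.P092.H962
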