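import Vale.Agent.P092.H962.MT4
import Vale.Agent.P092.H962.Tr0
import Vale.Agent.P092.H333.ErgT2
import Vale.Agent.P092.H962.HB

/-!
The amplified model: ergodicity, the second Parseval frame and the vanishing of the trace; the
assembly of the operator side for `HH(α, α, α)`.
-/

set_option linter.all false

open scoped InnerProductSpace ENNReal
open Filter Topology ContinuousLinearMap
open Vale.Agent.P092.H160 Vale.Agent.P092.H103 Vale.Agent.P092.SR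

namespace Vale.Agent.P092.H962

section

variable {Γ Λ I J K : Type} [Group Γ] [Group Λ] [Fintype I] [Fintype J] [Fintype K]
  {α : Γ → (Ell2 (I × Λ) →L[ℂ] Ell2 (I × Λ))} {β : Γ → (Ell2 (J × Λ) →L[ℂ] Ell2 (J × Λ))}
  {γ : Γ → (Ell2 (K × Λ) →L[ℂ] Ell2 (K × Λ))}

/-- ergodicity of the model from helper333's theorem -/
theorem ergAt_HH (hΛ : ∀ s : Λ, s ≠ 1 → Set.Infinite {y : Λ | ∃ h, y = h * s * h⁻¹})
    (hα : AF α) (hβ : AF β) (hγ : AF γ) {G : Type} [Group G] [TopologicalSpace G] {p : Γ →* G}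
    (hU : ∀ U : Subgroup G, IsOpen (U : Set G) → H333.ErgU α {g | p g ∈ U}) :
    ErgAt (V3 hα hβ hγ) (A3R hα hβ hγ) (B3R hα hβ hγ) p := by
  intro U hUo x h1 h2 h3
  obtain ⟨hPP, kA, kB, kC, lA, lB, lC⟩ := PT_three hα hβ hγ
  set X := upp hα hβ hγ x with hX
  have q1 : PT α β γ * X = X := P_upp hα hβ hγ x
  have q2 : X * PT α β γ = X := upp_P hα hβ hγ x
  have left : ∀ Y, Y * PT α β γ = PT α β γ → Y * X = X := fun Y hY => by
    rw [← q1, ← mul_assoc, hY]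
  have right : ∀ Y, PT α β γ * Y = PT α β γ → X * Y = X := fun Y hY => by
    rw [← q2, mul_assoc, hY]
  obtain ⟨c, hc⟩ := H333.erg_t hΛ hα hβ hγ (hU U hUo) (X := X) (left _ lA)
    (right _ (by rw [kA, lA])) (left _ lB) (right _ (by rw [kB, lB])) (left _ lC)
    (right _ (by rw [kC, lC]))
    (fun g => upp_comm hα hβ hγ (kB g) (A3R_val hα hβ hγ g) (h2 g))
    (fun g => upp_comm hα hβ hγ (kC g) (B3R_val hα hβ hγ g) (h3 g))
    (fun g hg => upp_comm hα hβ hγ (kA g) (V3_val hα hβ hγ g) (h1 g hg))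
  exact ⟨c, scalar_of_upp hα hβ hγ hc⟩

end

/-! ### Transport of `Tri` -/

section tri

variable {ι Γ ℋ ℋ' : Type} [Fintype ι] [Group Γ] [NormedAddCommGroup ℋ] [InnerProductSpace ℂ ℋ]
  [CompleteSpace ℋ] [NormedAddCommGroup ℋ'] [InnerProductSpace ℂ ℋ'] [CompleteSpace ℋ']
  {σ : ℂ → ℂ} {U : ℋ → ℋ'} {U' : ℋ' → ℋ} (h : AU σ U U')
  {S T R : Γ →* (ℋ →L[ℂ] ℋ)} {S' T' R' : Γ →* (ℋ' →L[ℂ] ℋ')} {ξ : ι → ℋ}

include h

theorem AU.adj_tr (hS : ∀ g v, U (S g v) = S' g (U v)) (hadj : ∀ g, adjoint (S g) = S g⁻¹) (g : Γ) :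
    adjoint (S' g) = S' g⁻¹ := by
  refine ((ContinuousLinearMap.eq_adjoint_iff _ _).mpr fun u v => ?_).symm
  have e1 : ∀ g v, S' g v = U (S g (U' v)) := fun g v => by rw [hS, h.inv']
  have e2 := h.inn (S g⁻¹ (U' u)) (U' v)
  have e3 := h.inn (U' u) (S g (U' v))
  rw [h.inv'] at e2 e3
  rw [e1 g⁻¹ u, e2, e1 g v, e3, ← adjoint_inner_right, hadj, inv_inv]

theorem AU.comm_tr (hS : ∀ g v, U (S g v) = S' g (U v)) (hT : ∀ g v, U (T g v) = T' g (U v))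
    (hc : ∀ g k, S g * T k = T k * S g) (g k : Γ) : S' g * T' k = T' k * S' g := by
  have e1 : ∀ g v, S' g v = U (S g (U' v)) := fun g v => by rw [hS, h.inv']
  have e2 : ∀ g v, T' g v = U (T g (U' v)) := fun g v => by rw [hT, h.inv']
  ext1 v
  change S' g (T' k v) = T' k (S' g v)
  rw [e1, e2, h.inv, e2 k, e1, h.inv]
  exact congrArg U (congrArg (fun A : ℋ →L[ℂ] ℋ => A (U' v)) (hc g k))

theorem AU.tri (hS : ∀ g v, U (S g v) = S' g (U v)) (hT : ∀ g v, U (T g v) = T' g (U v))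
    (hR : ∀ g v, U (R g v) = R' g (U v)) (hσ : ∀ c, ‖σ c‖ = ‖c‖) (ht : Tri S T R ξ) :
    Tri S' T' R' (fun k => U (ξ k)) where
  adjV := h.adj_tr hS ht.adjV
  adj₁ := h.adj_tr hT ht.adj₁
  adj₂ := h.adj_tr hR ht.adj₂
  comm₁ := h.comm_tr hS hT ht.comm₁
  comm₂ := h.comm_tr hS hR ht.comm₂
  comm₁₂ := h.comm_tr hT hR ht.comm₁₂
  ne := by
    obtain ⟨k, hk⟩ := ht.ne
    refine ⟨k, fun h0 => hk ?_⟩
    have := h.norm (ξ k)
    rw [h0, norm_zero] at this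
    exact norm_eq_zero.mp this.symm
  frame η := by
    have h1 := ht.frame (U' η)
    rw [h.norm'] at h1
    have h2 : (fun p : ι × Γ × Γ => ‖⟪T' p.2.1 (R' p.2.2 (U (ξ p.1))), η⟫_ℂ‖ ^ 2) =
        fun p : ι × Γ × Γ => ‖⟪T p.2.1 (R p.2.2 (ξ p.1)), U' η⟫_ℂ‖ ^ 2 := by
      funext p
      have e := h.inn (T p.2.1 (R p.2.2 (ξ p.1))) (U' η)
      rw [h.inv', hT, hR] at e
      rw [e, hσ]
    rw [h2]
    exact h1

end tri

section model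

variable {Γ Λ I J K : Type} [Group Γ] [Group Λ] [Fintype I] [Fintype J] [Fintype K]
  {α : Γ → (Ell2 (I × Λ) →L[ℂ] Ell2 (I × Λ))} {β : Γ → (Ell2 (J × Λ) →L[ℂ] Ell2 (J × Λ))}
  {γ : Γ → (Ell2 (K × Λ) →L[ℂ] Ell2 (K × Λ))} (hα : AF α) (hβ : AF β) (hγ : AF γ)

/-- the relations of the inverse flip `HH(β, α, br γ) → HH(α, β, γ)` -/
theorem flU'_V (g : Γ) (w : HH (PT β α (br γ))) :
    flU' hα hβ hγ (V3 hβ hα (AF.bar hγ) g w) = A3R hα hβ hγ g (flU' hα hβ hγ w) :=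
  (flip_AU hα hβ hγ).inter_symm (flU_A hα hβ hγ) g w

theorem flU'_A (g : Γ) (w : HH (PT β α (br γ))) :
    flU' hα hβ hγ (A3R hβ hα (AF.bar hγ) g w) = V3 hα hβ hγ g (flU' hα hβ hγ w) :=
  (flip_AU hα hβ hγ).inter_symm (flU_V hα hβ hγ) g w

theorem flU'_B (g : Γ) (w : HH (PT β α (br γ))) :
    flU' hα hβ hγ (B3R hβ hα (AF.bar hγ) g w) = B3R hα hβ hγ g (flU' hα hβ hγ w) :=
  (flip_AU hα hβ hγ).inter_symm (flU_B hα hβ hγ) g w

/-- the second Parseval frame -/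
theorem exists_tri' (hΛ : ∀ s : Λ, s ≠ 1 → Set.Infinite {y : Λ | ∃ h, y = h * s * h⁻¹}) :
    ∃ (m m' : ℕ) (ξ : J × (Fin m × Fin m') → HH (PT α β γ)),
      SR.Tri (A3R hα hβ hγ) (V3 hα hβ hγ) (B3R hα hβ hγ) ξ := by
  obtain ⟨m, m', ξ, h⟩ := exists_tri hβ hα (AF.bar hγ) hΛ
  exact ⟨m, m', _, (flip_AU hα hβ hγ).symm.tri (flU'_V hα hβ hγ) (flU'_A hα hβ hγ)
    (flU'_B hα hβ hγ) (fun c => RCLike.norm_conj c) h⟩

/-- the frame with the two legs exchanged -/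
theorem tri_swap' {ι ℋ : Type} [Fintype ι] [NormedAddCommGroup ℋ] [InnerProductSpace ℂ ℋ]
    [CompleteSpace ℋ] {V R₁ R₂ : Γ →* (ℋ →L[ℂ] ℋ)} {ξ : ι → ℋ} (h : Tri V R₁ R₂ ξ) :
    Tri V R₂ R₁ ξ where
  adjV := h.adjV
  adj₁ := h.adj₂
  adj₂ := h.adj₁
  comm₁ := h.comm₂
  comm₂ := h.comm₁
  comm₁₂ g k := (h.comm₁₂ k g).symm
  ne := h.ne
  frame η := by
    let e : ι × Γ × Γ ≃ ι × Γ × Γ := Equiv.prodCongr (Equiv.refl ι) (Equiv.prodComm Γ Γ)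
    have h1 := e.hasSum_iff.mpr (h.frame η)
    refine h1.congr_fun ?_ |> id
    rintro ⟨k, a, b⟩
    change ‖⟪R₂ a (R₁ b (ξ k)), η⟫_ℂ‖ ^ 2 = ‖⟪R₁ b (R₂ a (ξ k)), η⟫_ℂ‖ ^ 2
    have e2 : R₂ a (R₁ b (ξ k)) = R₁ b (R₂ a (ξ k)) :=
      congrArg (fun A : ℋ →L[ℂ] ℋ => A (ξ k)) (h.comm₁₂ b a).symm
    rw [e2]

end model

theorem JT_norm {I Λ : Type} [Group Λ] {x : Ell2 (I × Λ) →L[ℂ] Ell2 (I × Λ)} (hx : ‖x‖ ≤ 1) :
    ‖JT x‖ ≤ 1 := by
  refine ContinuousLinearMap.opNorm_le_bound _ zero_le_one fun v => ?_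
  change ‖rei (ivE I Λ) (cj (x (cj (rei (ivE I Λ) v))))‖ ≤ 1 * ‖v‖
  rw [norm_rei, norm_cj]
  refine (x.le_opNorm _).trans ?_
  rw [norm_cj, norm_rei]
  gcongr

/-! ### The core for all amplifications -/

section final

variable {Γ Λ I : Type} [Group Γ] [Group Λ] [Fintype I]
  {α : Γ → (Ell2 (I × Λ) →L[ℂ] Ell2 (I × Λ))}

/-- **Assembly of the operator side for one amplified frame**, any finite number of places. -/
theorem core_t (hM : MatchRStmt) (hA : ThAStmt) (h5 : C5RStmt) (h6 : C6RStmt) (h7 : C7RStmt)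
    (hΛ : ∀ s : Λ, s ≠ 1 → Set.Infinite {y : Λ | ∃ h, y = h * s * h⁻¹}) (hα : AF α)
    {Pl : Type} [Fintype Pl] {H : Pl → Type} [∀ i, Group (H i)] [∀ i, TopologicalSpace (H i)]
    (hG : ∀ i, GoodGrp (H i)) {p : ∀ i, Γ →* H i} (hp : Plc p)
    (he : ∀ (β : Γ → (Ell2 (I × Λ) →L[ℂ] Ell2 (I × Λ))) (hβ : AF β), ∀ i,
      ErgAt (V3 hα hα hβ) (A3R hα hα hβ) (B3R hα hα hβ) (p i))
    (hf : ∀ (β : Γ → (Ell2 (I × Λ) →L[ℂ] Ell2 (I × Λ))) (hβ : AF β), ∀ i, ∃ j,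
      FinI (p i) (p j) (V3 hα hα hβ) (A3R hα hα hβ) (Set.range (B3R hα hα hβ))) :
    ∃ c : ℝ, 0 < c ∧ ∀ g, c ≤ q4 α g := by
  obtain ⟨m, m', ξ, hT⟩ := exists_tri hα hα hα hΛ
  have hS := (flip_AU hα hα hα).symm
  have L1 : LegD (V3 hα hα hα) (A3R hα hα hα) (B3R hα hα hα) p :=
    { eT := he α hα
      eS := fun i => hS.ergAt (flU'_V hα hα hα) (flU'_A hα hα hα) (flU'_B hα hα hα)
        (he _ (AF.bar hα) i)
      fT := hf α hα
      fS := fun i => by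
        obtain ⟨j, hj⟩ := hf _ (AF.bar hα) i
        exact ⟨j, hS.finI (flU'_V hα hα hα) (flU'_A hα hα hα) (flU'_B hα hα hα) hj⟩ }
  have hW := swap_AU (β := α) (γ := α) hα
  have L2 : LegD (V3 hα hα hα) (B3R hα hα hα) (A3R hα hα hα) p :=
    { eT := fun i => hW.ergAt (swU_V hα hα hα) (swU_A hα hα hα) (swU_B hα hα hα) (L1.eT i)
      eS := fun i => hW.ergAt (swU_A hα hα hα) (swU_V hα hα hα) (swU_B hα hα hα) (L1.eS i)
      fT := fun i => by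
        obtain ⟨j, hj⟩ := L1.fT i
        exact ⟨j, hW.finI (swU_V hα hα hα) (swU_A hα hα hα) (swU_B hα hα hα) hj⟩
      fS := fun i => by
        obtain ⟨j, hj⟩ := L1.fS i
        exact ⟨j, hW.finI (swU_A hα hα hα) (swU_V hα hα hα) (swU_B hα hα hα) hj⟩ }
  obtain ⟨r, ζ, κ, hκ, -, hζ⟩ := overlapT hM hA h5 h6 h7 hT (tri_swap' hT) hG hp L1 L2
  refine hb hα (J := I) (K := I) (fun i => (ζ i : Ell2 (I × ((I × Λ) × (I × Λ))))) hκ fun g => ?_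
  obtain ⟨i, j, a, b, h⟩ := hζ g
  refine ⟨i, j, JT (α a), JT (α b), JT_norm (al_norm hα a), JT_norm (al_norm hα b), ?_⟩
  rw [Submodule.coe_inner, V3_val, RR3_val] at h
  have e1 : R1T I I (α a) * R2T I I (α b) = tens 1 (tens (JT (α a)) (JT (α b))) := by
    rw [R1T, R2T, ← tens_mul, ← tens_mul, one_mul, one_mul, mul_one]
  have e2 : R1T I I (α a) (R2T I I (α b) (ζ j : Ell2 (I × ((I × Λ) × (I × Λ))))) =
      tens 1 (tens (JT (α a)) (JT (α b))) (ζ j : Ell2 (I × ((I × Λ) × (I × Λ)))) := by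
    rw [← e1]; rfl
  rw [e2] at h
  exact h

end final

end Vale.Agent.P092.H962
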