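import Mathlib

/-!
P092 (helper962): comparison of projections in a commutant with a faithful trace and trivial centre:
two projections with the same trace are equivalent.
-/

set_option linter.all false

open scoped InnerProductSpace
open ContinuousLinearMap

namespace Vale.Agent.P092.H962.Eq

variable {H : Type} [NormedAddCommGroup H] [InnerProductSpace ℂ H] [CompleteSpace H]

/-- `x` commutes with the elements of `S` -/
def Cc (S : Set (H →L[ℂ] H)) (x : H →L[ℂ] H) : Prop := ∀ s ∈ S, x * s = s * x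

variable {S : Set (H →L[ℂ] H)} {x y : H →L[ℂ] H}

theorem Cc.mul (hx : Cc S x) (hy : Cc S y) : Cc S (x * y) := fun s hs => by
  rw [mul_assoc, hy s hs, ← mul_assoc, hx s hs, mul_assoc]

theorem Cc.add (hx : Cc S x) (hy : Cc S y) : Cc S (x + y) := fun s hs => by
  rw [add_mul, mul_add, hx s hs, hy s hs]

theorem Cc.sub (hx : Cc S x) (hy : Cc S y) : Cc S (x - y) := fun s hs => by
  rw [sub_mul, mul_sub, hx s hs, hy s hs]

theorem Cc.one : Cc S (1 : H →L[ℂ] H) := fun s hs => by rw [one_mul, mul_one]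

theorem adj_mul' (x y : H →L[ℂ] H) : adjoint (x * y) = adjoint y * adjoint x := star_mul x y

theorem adj_adj' (x : H →L[ℂ] H) : adjoint (adjoint x) = x := star_star x

theorem Cc.adj (hS : ∀ s ∈ S, adjoint s ∈ S) (hx : Cc S x) : Cc S (adjoint x) := fun s hs => by
  have h := congrArg adjoint (hx _ (hS s hs))
  rw [adj_mul', adj_mul', adj_adj'] at h
  exact h.symm

/-- an operator and its adjoint which preserve a closed subspace commute with the projection -/
theorem comm_starProjection {F : Submodule ℂ H} [F.HasOrthogonalProjection] {s : H →L[ℂ] H}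
    (h1 : ∀ v ∈ F, s v ∈ F) (h2 : ∀ v ∈ F, adjoint s v ∈ F) :
    F.starProjection * s = s * F.starProjection := by
  ext1 v
  change F.starProjection (s v) = s (F.starProjection v)
  refine Submodule.eq_starProjection_of_mem_of_inner_eq_zero (h1 _
    (Submodule.starProjection_apply_mem F v)) fun w hw => ?_
  rw [← map_sub, ← adjoint_inner_right]
  exact Submodule.starProjection_inner_eq_zero _ _ (h2 w hw)

theorem adj_starProjection (F : Submodule ℂ H) [F.HasOrthogonalProjection] :
    adjoint F.starProjection = F.starProjection := isSelfAdjoint_starProjection F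

theorem sq_starProjection (F : Submodule ℂ H) [F.HasOrthogonalProjection] :
    F.starProjection * F.starProjection = F.starProjection :=
  Submodule.isIdempotentElem_starProjection F

theorem adj_mul_self_ne (hx : x ≠ 0) : adjoint x * x ≠ 0 := by
  intro h
  apply hx
  ext1 v
  have h1 : ⟪adjoint x (x v), v⟫_ℂ = 0 := by
    have := DFunLike.congr_fun h v
    change adjoint x (x v) = 0 at this
    rw [this, inner_zero_left]
  rw [adjoint_inner_left] at h1
  exact inner_self_eq_zero.1 h1

/-- a nonzero partial isometry under a nonzero operator -/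
theorem exists_pi (hS : ∀ s ∈ S, adjoint s ∈ S) (hx : Cc S x) (h0 : x ≠ 0) :
    ∃ a q : H →L[ℂ] H, Cc S a ∧ Cc S q ∧ adjoint a = a ∧ adjoint q = q ∧ q * q = q ∧ q ≠ 0 ∧
      adjoint (x * a * q) * (x * a * q) = q ∧
      ∀ f, adjoint f = f → x * f = x → q * f = q := by
  set b := adjoint x * x with hb
  have hbC : Cc S b := (hx.adj hS).mul hx
  have hbs : IsSelfAdjoint b := IsSelfAdjoint.star_mul_self x
  have hb0 : b ≠ 0 := adj_mul_self_ne h0
  have hbn : 0 < ‖b‖ := norm_pos_iff.2 hb0
  have hpos : ∀ t ∈ spectrum ℝ b, 0 ≤ t := by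
    intro t ht
    exact spectrum_nonneg_of_nonneg (star_mul_self_nonneg x) ht
  set δ := ‖b‖ / 2 with hδ
  have hδ0 : 0 < δ := by positivity
  have hcomm : ∀ f : ℝ → ℝ, Cc S (cfc f b) := by
    intro f s hs
    exact (hbs.commute_cfc (show Commute b s from hbC s hs) f)
  set g : ℝ → ℝ := fun t => (Real.sqrt (max t δ))⁻¹ with hg
  have hgc : Continuous g := by
    refine Continuous.inv₀ (Real.continuous_sqrt.comp (continuous_id.max continuous_const)) ?_
    intro t
    exact (Real.sqrt_pos.2 (lt_of_lt_of_le hδ0 (le_max_right _ _))).ne'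
  have hid : cfc (fun t : ℝ => t) b = b := cfc_id' ℝ b hbs
  set A := cfc g b with hA
  set T := cfc (fun t : ℝ => (g t * t) * g t) b with hT
  have hTg : A * b * A = T := by
    have h2 : cfc (fun t : ℝ => g t * t) b = A * b := by
      rw [cfc_mul g (fun t => t) b hgc.continuousOn continuousOn_id, hid]
    rw [hT, cfc_mul (fun t => g t * t) g b (hgc.mul continuous_id).continuousOn hgc.continuousOn,
      h2]
  have hAa : adjoint A = A := (cfc_predicate g b : IsSelfAdjoint _)
  have hTa : adjoint T = T := (cfc_predicate _ b : IsSelfAdjoint _)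
  have hTC : Cc S T := hcomm _
  set F : Submodule ℂ H := LinearMap.ker ((1 - T : H →L[ℂ] H) : H →ₗ[ℂ] H) with hF
  have hFm : ∀ v, v ∈ F ↔ T v = v := by
    intro v
    rw [hF, LinearMap.mem_ker]
    change v - T v = 0 ↔ _
    rw [sub_eq_zero, eq_comm]
  haveI : CompleteSpace F := (ContinuousLinearMap.isClosed_ker (1 - T)).completeSpace_coe
  set q := F.starProjection with hq
  have hqa : adjoint q = q := adj_starProjection F
  have hqq : q * q = q := sq_starProjection F
  have hTq : T * q = q := by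
    ext1 v
    exact (hFm _).1 (Submodule.starProjection_apply_mem F v)
  have hqC : Cc S q := by
    intro s hs
    refine comm_starProjection (fun v hv => ?_) (fun v hv => ?_)
    · rw [hFm] at hv ⊢
      have := DFunLike.congr_fun (hTC s hs) v
      change T (s v) = s (T v) at this
      rw [this, hv]
    · rw [hFm] at hv ⊢
      have := DFunLike.congr_fun (hTC _ (hS s hs)) v
      change T (adjoint s v) = adjoint s (T v) at this
      rw [this, hv]
  refine ⟨A, q, hcomm _, hqC, hAa, hqa, hqq, ?_, ?_, ?_⟩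
  · -- `q ≠ 0`
    intro hq0
    set r : ℝ → ℝ := fun t => max (t - δ) 0 with hr
    have hrc : Continuous r := (continuous_id.sub continuous_const).max continuous_const
    have h3 : T * cfc r b = cfc r b := by
      rw [hT, ← cfc_mul (fun t => (g t * t) * g t) r b
        ((hgc.mul continuous_id).mul hgc).continuousOn hrc.continuousOn]
      refine cfc_congr fun t ht => ?_
      change (g t * t) * g t * r t = r t
      rcases le_total t δ with h | h
      · have : r t = 0 := max_eq_right (by linarith)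
        rw [this, mul_zero]
      · have h4 : g t = (Real.sqrt t)⁻¹ := by rw [hg]; simp only [max_eq_left h]
        have ht0 : 0 < t := lt_of_lt_of_le hδ0 h
        have h5 : (Real.sqrt t)⁻¹ * t * (Real.sqrt t)⁻¹ = 1 := by
          have h6 : Real.sqrt t ≠ 0 := (Real.sqrt_pos.2 ht0).ne'
          have h7 : Real.sqrt t * Real.sqrt t = t := Real.mul_self_sqrt ht0.le
          field_simp
          nlinarith [h7]
        rw [h4, h5, one_mul]
    have h8 : q * cfc r b = cfc r b := by
      ext1 v
      refine Submodule.starProjection_eq_self_iff.2 ((hFm _).2 ?_)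
      exact DFunLike.congr_fun h3 v
    rw [hq0, zero_mul] at h8
    have h9 : b = cfc (fun t => min t δ) b := by
      conv_lhs => rw [← hid]
      have h10 : cfc (fun t : ℝ => t) b = cfc (fun t => min t δ + r t) b := by
        refine cfc_congr fun t _ => ?_
        rcases le_total t δ with h | h
        · change t = min t δ + max (t - δ) 0
          rw [min_eq_left h, max_eq_right (by linarith), add_zero]
        · change t = min t δ + max (t - δ) 0
          rw [min_eq_right h, max_eq_left (by linarith)]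
          ring
      rw [h10, cfc_add b (fun t => min t δ) r (continuous_id.min continuous_const).continuousOn
        hrc.continuousOn, ← h8, add_zero]
    have h11 : ‖b‖ ≤ δ := by
      conv_lhs => rw [h9]
      refine norm_cfc_le hδ0.le fun t ht => ?_
      rw [Real.norm_of_nonneg (le_min (hpos t ht) hδ0.le)]
      exact min_le_right _ _
    rw [hδ] at h11
    linarith
  · rw [adj_mul', adj_mul', hAa, hqa]
    calc q * (A * adjoint x) * (x * A * q) = q * (A * b * A * q) := by
          rw [hb]; simp only [mul_assoc]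
      _ = q := by rw [hTg, hTq, hqq]
  · intro f hfa hxf
    have h1 : b * f = b := by rw [hb, mul_assoc, hxf]
    have h2 : f * b = b := by
      have := congrArg adjoint h1
      rw [adj_mul', hfa, show adjoint b = b from hbs] at this
      exact this
    have h3 : A * f = f * A := hbs.commute_cfc (show Commute b f from h1.trans h2.symm) g
    have h4 : T * f = T := by
      rw [← hTg, mul_assoc, h3, ← mul_assoc, mul_assoc A b f, h1]
    have h5 : q * T = q := by
      have := congrArg adjoint hTq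
      rw [adj_mul', hqa, hTa] at this
      exact this
    calc q * f = q * T * f := by rw [h5]
      _ = q := by rw [mul_assoc, h4, h5]

/-- connecting two nonzero projections -/
theorem exists_conn (hS : ∀ s ∈ S, adjoint s ∈ S)
    (hfac : ∀ z, Cc S z → (∀ y, Cc S y → z * y = y * z) → ∃ c : ℂ, z = c • (1 : H →L[ℂ] H))
    {e f : H →L[ℂ] H} (hf : Cc S f) (he0 : e ≠ 0) (hf0 : f ≠ 0) :
    ∃ y, Cc S y ∧ e * y * f ≠ 0 := by
  by_contra hcon
  push Not at hcon
  set G : Set H := {w | ∃ y v, Cc S y ∧ w = y (f v)} with hG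
  set F : Submodule ℂ H := (Submodule.span ℂ G).topologicalClosure with hF
  haveI : CompleteSpace F := (Submodule.isClosed_topologicalClosure _).completeSpace_coe
  have hmap : ∀ T : H →L[ℂ] H, (∀ w ∈ G, T w ∈ G) → ∀ v ∈ F, T v ∈ F := by
    intro T hT v hv
    have h1 : Submodule.span ℂ G ≤ F.comap (T : H →ₗ[ℂ] H) := by
      refine Submodule.span_le.2 fun w hw => ?_
      exact Submodule.le_topologicalClosure _ (Submodule.subset_span (hT w hw))
    have h2 : IsClosed ((F.comap (T : H →ₗ[ℂ] H) : Submodule ℂ H) : Set H) :=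
      (Submodule.isClosed_topologicalClosure _).preimage T.continuous
    exact Submodule.topologicalClosure_minimal _ h1 h2 hv
  have hs : ∀ s ∈ S, ∀ w ∈ G, s w ∈ G := by
    rintro s hs _ ⟨y, v, hy, rfl⟩
    refine ⟨y, s v, hy, ?_⟩
    have := DFunLike.congr_fun ((hy.mul hf) s hs) v
    exact this.symm
  have hN : ∀ T, Cc S T → ∀ w ∈ G, T w ∈ G := by
    rintro T hT _ ⟨y, v, hy, rfl⟩
    exact ⟨T * y, v, hT.mul hy, rfl⟩
  obtain ⟨c, hc⟩ := hfac F.starProjection
    (fun s h => comm_starProjection (hmap s (hs s h)) (hmap _ (hs _ (hS s h))))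
    (fun y hy => comm_starProjection (hmap y (hN y hy)) (hmap _ (hN _ (hy.adj hS))))
  obtain ⟨v, hv⟩ : ∃ v, f v ≠ 0 := by
    by_contra h
    push Not at h
    exact hf0 (by ext1 v; exact h v)
  have hfv : f v ∈ F := Submodule.le_topologicalClosure _
    (Submodule.subset_span ⟨1, v, Cc.one, rfl⟩)
  have h3 : F.starProjection (f v) = f v := Submodule.starProjection_eq_self_iff.2 hfv
  have hc1 : c = 1 := by
    rw [hc] at h3
    change c • f v = f v at h3
    have h4 : (c - 1) • f v = 0 := by rw [sub_smul, one_smul, h3, sub_self]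
    rcases smul_eq_zero.1 h4 with h | h
    · exact sub_eq_zero.1 h
    · exact absurd h hv
  apply he0
  have h5 : F ≤ LinearMap.ker (e : H →ₗ[ℂ] H) := by
    refine Submodule.topologicalClosure_minimal _ (Submodule.span_le.2 ?_)
      (ContinuousLinearMap.isClosed_ker e)
    rintro _ ⟨y, v, hy, rfl⟩
    exact DFunLike.congr_fun (hcon y hy) v
  ext1 u
  have h6 : F.starProjection u = u := by rw [hc, hc1, one_smul]; rfl
  have h7 : u ∈ F := Submodule.starProjection_eq_self_iff.1 h6
  exact h5 h7

theorem proj_norm_le {p : H →L[ℂ] H} (ha : adjoint p = p) (hp : p * p = p) (v : H) :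
    ‖p v‖ ^ 2 = (⟪v, p v⟫_ℂ).re ∧ ‖p v‖ ≤ ‖v‖ := by
  have h1 : ⟪p v, p v⟫_ℂ = ⟪v, p v⟫_ℂ := by
    have h2 : p (p v) = p v := DFunLike.congr_fun hp v
    rw [← adjoint_inner_right, ha, h2]
  have h3 : ‖p v‖ ^ 2 = (⟪v, p v⟫_ℂ).re := by
    rw [← h1, inner_self_eq_norm_sq_to_K]
    norm_cast
  refine ⟨h3, ?_⟩
  have h4 : (⟪v, p v⟫_ℂ).re ≤ ‖v‖ * ‖p v‖ :=
    (Complex.re_le_norm _).trans (norm_inner_le_norm v (p v))
  by_contra hlt
  push Not at hlt
  have h5 : 0 ≤ ‖v‖ := norm_nonneg v
  nlinarith

section sum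

variable {J : Type} {u : J → (H →L[ℂ] H)}

theorem sum_norm_le (h1 : ∀ j, u j * adjoint (u j) * u j = u j)
    (h3 : ∀ i j, i ≠ j → u i * adjoint (u j) = 0) (s : Finset J) (v : H) :
    ∑ j ∈ s, ‖u j v‖ ^ 2 ≤ ‖v‖ ^ 2 := by
  classical
  set p : H →L[ℂ] H := ∑ j ∈ s, adjoint (u j) * u j with hp
  have hpa : adjoint p = p := by
    rw [hp, map_sum]
    exact Finset.sum_congr rfl fun j _ => by rw [adj_mul', adj_adj']
  have hpp : p * p = p := by
    rw [hp, Finset.sum_mul]
    refine Finset.sum_congr rfl fun i hi => ?_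
    rw [Finset.mul_sum, Finset.sum_eq_single i]
    · calc adjoint (u i) * u i * (adjoint (u i) * u i)
          = adjoint (u i) * (u i * adjoint (u i) * u i) := by simp only [mul_assoc]
        _ = _ := by rw [h1]
    · intro j _ hj
      calc adjoint (u i) * u i * (adjoint (u j) * u j)
          = adjoint (u i) * (u i * adjoint (u j)) * u j := by simp only [mul_assoc]
        _ = 0 := by rw [h3 i j (Ne.symm hj), mul_zero, zero_mul]
    · intro h; exact absurd hi h
  obtain ⟨h4, h5⟩ := proj_norm_le hpa hpp v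
  have h6 : ∑ j ∈ s, ‖u j v‖ ^ 2 = (⟪v, p v⟫_ℂ).re := by
    rw [hp, ContinuousLinearMap.sum_apply, inner_sum, Complex.re_sum]
    refine Finset.sum_congr rfl fun j _ => ?_
    change _ = (⟪v, adjoint (u j) (u j v)⟫_ℂ).re
    rw [adjoint_inner_right, inner_self_eq_norm_sq_to_K]
    norm_cast
  rw [h6, ← h4]
  exact pow_le_pow_left₀ (norm_nonneg _) h5 2

theorem exists_sum (h1 : ∀ j, u j * adjoint (u j) * u j = u j)
    (h2 : ∀ i j, i ≠ j → adjoint (u i) * u j = 0)
    (h3 : ∀ i j, i ≠ j → u i * adjoint (u j) = 0) :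
    ∃ w : H →L[ℂ] H, ∀ v, HasSum (fun j => u j v) (w v) := by
  have hO : OrthogonalFamily ℂ (fun j => (LinearMap.range (u j : H →ₗ[ℂ] H) : Submodule ℂ H))
      (fun j => (LinearMap.range (u j : H →ₗ[ℂ] H)).subtypeₗᵢ) := by
    intro i j hij
    rintro ⟨_, a, rfl⟩ ⟨_, b, rfl⟩
    change ⟪u i a, u j b⟫_ℂ = 0
    rw [← adjoint_inner_right]
    have := DFunLike.congr_fun (h2 i j hij) b
    change adjoint (u i) (u j b) = 0 at this
    rw [this, inner_zero_right]
  have hsum : ∀ v, Summable fun j => u j v := by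
    intro v
    have h4 : Summable fun j => ‖(⟨u j v, v, rfl⟩ : LinearMap.range (u j : H →ₗ[ℂ] H))‖ ^ 2 :=
      summable_of_sum_le (fun j => by positivity) (fun s => sum_norm_le h1 h3 s v)
    exact (hO.summable_iff_norm_sq_summable _).2 h4
  have hbd : ∀ v, ‖∑' j, u j v‖ ≤ 1 * ‖v‖ := by
    intro v
    rw [one_mul]
    refine le_of_tendsto ((hsum v).hasSum.norm) (Filter.Eventually.of_forall fun s => ?_)
    have h5 := hO.norm_sum (fun j => (⟨u j v, v, rfl⟩ : LinearMap.range (u j : H →ₗ[ℂ] H))) s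
    have h6 : ‖∑ j ∈ s, u j v‖ ^ 2 ≤ ‖v‖ ^ 2 := by
      refine le_trans (le_of_eq ?_) (sum_norm_le h1 h3 s v)
      exact h5
    exact le_of_sq_le_sq h6 (norm_nonneg v)
  refine ⟨LinearMap.mkContinuous
    { toFun := fun v => ∑' j, u j v
      map_add' := fun a b => by
        rw [← (hsum a).tsum_add (hsum b)]
        exact tsum_congr fun j => map_add _ _ _
      map_smul' := fun c a => by
        rw [RingHom.id_apply, ← (hsum a).tsum_const_smul c]
        exact tsum_congr fun j => map_smul _ _ _ } 1 hbd, fun v => (hsum v).hasSum⟩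

/-- the sum of an orthogonal family of partial isometries -/
theorem exists_sum' (h1 : ∀ j, u j * adjoint (u j) * u j = u j)
    (h2 : ∀ i j, i ≠ j → adjoint (u i) * u j = 0)
    (h3 : ∀ i j, i ≠ j → u i * adjoint (u j) = 0) :
    ∃ w : H →L[ℂ] H, (∀ v, HasSum (fun j => u j v) (w v)) ∧ w * adjoint w * w = w ∧
      (∀ j, w * adjoint (u j) = u j * adjoint (u j)) ∧
      ∀ j, adjoint w * u j = adjoint (u j) * u j := by
  obtain ⟨w, hw⟩ := exists_sum h1 h2 h3
  obtain ⟨w', hw'⟩ := exists_sum (u := fun j => adjoint (u j))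
    (fun j => by
      have := congrArg adjoint (h1 j)
      rw [adj_mul', adj_mul', adj_adj'] at this
      rw [adj_adj', mul_assoc]
      exact this)
    (fun i j hij => by
      change adjoint (adjoint (u i)) * adjoint (u j) = 0
      rw [adj_adj', h3 i j hij])
    (fun i j hij => by
      change adjoint (u i) * adjoint (adjoint (u j)) = 0
      rw [adj_adj', h2 i j hij])
  have hww : adjoint w = w' := by
    ext1 η
    refine ext_inner_left ℂ fun ξ => ?_
    rw [adjoint_inner_right]
    have a : HasSum (fun j => ⟪u j ξ, η⟫_ℂ) ⟪ξ, w' η⟫_ℂ := by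
      have := (innerSL ℂ ξ).hasSum (hw' η)
      simpa only [innerSL_apply_apply, adjoint_inner_right] using this
    have b : HasSum (fun j => ⟪u j ξ, η⟫_ℂ) ⟪w ξ, η⟫_ℂ := by
      have := Complex.hasSum_conj'.2 ((innerSL ℂ η).hasSum (hw ξ))
      simpa only [innerSL_apply_apply, inner_conj_symm] using this
    exact b.unique a
  have h4 : ∀ i, u i * w' = u i * adjoint (u i) := by
    intro i
    ext1 v
    have a := (u i).hasSum (hw' v)
    refine a.unique ?_
    refine hasSum_single i fun j hj => ?_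
    exact DFunLike.congr_fun (h3 i j (Ne.symm hj)) v
  have h5 : ∀ i, adjoint (u i) * w = adjoint (u i) * u i := by
    intro i
    ext1 v
    have a := (adjoint (u i)).hasSum (hw v)
    refine a.unique ?_
    refine hasSum_single i fun j hj => ?_
    exact DFunLike.congr_fun (h2 i j (Ne.symm hj)) v
  refine ⟨w, hw, ?_, fun j => ?_, fun j => ?_⟩
  · ext1 v
    have a := hw (adjoint w (w v))
    refine a.unique ?_
    have b : (fun j => u j (adjoint w (w v))) = fun j => u j v := by
      funext j
      have e1 : u j (adjoint w (w v)) = u j (adjoint (u j) (w v)) := by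
        rw [hww]; exact DFunLike.congr_fun (h4 j) (w v)
      have e2 : adjoint (u j) (w v) = adjoint (u j) (u j v) := DFunLike.congr_fun (h5 j) v
      rw [e1, e2]
      exact DFunLike.congr_fun (h1 j) v
    rw [b]
    exact hw v
  · have := congrArg adjoint (h4 j)
    rw [← hww, adj_mul', adj_mul', adj_adj', adj_adj'] at this
    exact this
  · have := congrArg adjoint (h5 j)
    rw [adj_mul', adj_mul', adj_adj'] at this
    exact this

end sum

/-- the members of the families -/
structure Pw (S : Set (H →L[ℂ] H)) (e f v : H →L[ℂ] H) : Prop where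
  cc : Cc S v
  l : e * v = v
  r : v * f = v
  pi : v * adjoint v * v = v
  ne : v ≠ 0

/-- the families -/
structure Fam (S : Set (H →L[ℂ] H)) (e f : H →L[ℂ] H) (A : Set (H →L[ℂ] H)) : Prop where
  mem : ∀ v ∈ A, Pw S e f v
  orth : ∀ v ∈ A, ∀ v' ∈ A, v ≠ v' → adjoint v * v' = 0 ∧ v * adjoint v' = 0

theorem exists_maxFam (S : Set (H →L[ℂ] H)) (e f : H →L[ℂ] H) :
    ∃ A, Fam S e f A ∧ ∀ B, Fam S e f B → A ⊆ B → B ⊆ A := by
  obtain ⟨A, hA⟩ := zorn_subset {A | Fam S e f A} (by
    intro c hc hch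
    refine ⟨⋃₀ c, ⟨?_, ?_⟩, fun s hs => Set.subset_sUnion_of_mem hs⟩
    · rintro v ⟨s, hs, hv⟩
      exact (hc hs).mem v hv
    · rintro v ⟨s, hs, hv⟩ v' ⟨s', hs', hv'⟩ hne
      rcases eq_or_ne s s' with rfl | hss
      · exact (hc hs).orth v hv v' hv' hne
      · rcases hch hs hs' hss with h | h
        · exact (hc hs').orth v (h hv) v' hv' hne
        · exact (hc hs).orth v hv v' (h hv') hne)
  exact ⟨A, hA.prop, fun B hB h => hA.le_of_ge hB h⟩

/-- **Two projections with the same trace are equivalent.** -/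
theorem exists_equiv (hS : ∀ s ∈ S, adjoint s ∈ S)
    (hfac : ∀ z, Cc S z → (∀ y, Cc S y → z * y = y * z) → ∃ c : ℂ, z = c • (1 : H →L[ℂ] H))
    {ι : Type} [Fintype ι] {ξ : ι → H}
    (htr : ∀ x y, Cc S x → Cc S y → ∑ i, ⟪ξ i, (x * y) (ξ i)⟫_ℂ = ∑ i, ⟪ξ i, (y * x) (ξ i)⟫_ℂ)
    (hfa : ∀ x, Cc S x → (∀ i, x (ξ i) = 0) → x = 0) {e f : H →L[ℂ] H} (he : Cc S e)
    (hf : Cc S f) (hea : adjoint e = e) (hfad : adjoint f = f) (hee : e * e = e)
    (hff : f * f = f) (ht : ∑ i, ⟪ξ i, e (ξ i)⟫_ℂ = ∑ i, ⟪ξ i, f (ξ i)⟫_ℂ) :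
    ∃ w, Cc S w ∧ adjoint w * w = f ∧ w * adjoint w = e := by
  obtain ⟨A, hA, hmax⟩ := exists_maxFam S e f
  obtain ⟨w, hw, hpi, hw1, hw2⟩ := exists_sum' (u := fun v : A => (v : H →L[ℂ] H))
    (fun v => (hA.mem v v.2).pi) (fun i j hij => (hA.orth i i.2 j j.2 fun h => hij
      (Subtype.ext h)).1) (fun i j hij => (hA.orth i i.2 j j.2 fun h => hij (Subtype.ext h)).2)
  have hwC : Cc S w := by
    intro s hs
    ext1 x
    refine (hw (s x)).unique ?_
    have b := s.hasSum (hw x)
    have c : (fun v : A => s ((v : H →L[ℂ] H) x)) = fun v : A => (v : H →L[ℂ] H) (s x) := by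
      funext v
      exact (DFunLike.congr_fun ((hA.mem v v.2).cc s hs) x).symm
    rw [c] at b
    exact b
  have hew : e * w = w := by
    ext1 x
    have b := e.hasSum (hw x)
    refine b.unique ?_
    have c : (fun v : A => e ((v : H →L[ℂ] H) x)) = fun v : A => (v : H →L[ℂ] H) x := by
      funext v
      exact DFunLike.congr_fun (hA.mem v v.2).l x
    rw [c]
    exact hw x
  have hwf : w * f = w := by
    ext1 x
    refine (hw (f x)).unique ?_
    have c : (fun v : A => (v : H →L[ℂ] H) (f x)) = fun v : A => (v : H →L[ℂ] H) x := by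
      funext v
      exact DFunLike.congr_fun (hA.mem v v.2).r x
    rw [c]
    exact hw x
  have hwe' : adjoint w * e = adjoint w := by
    have := congrArg adjoint hew
    rwa [adj_mul', hea] at this
  have hfw' : f * adjoint w = adjoint w := by
    have := congrArg adjoint hwf
    rwa [adj_mul', hfad] at this
  have hpi' : adjoint w * w * adjoint w = adjoint w := by
    have := congrArg adjoint hpi
    rw [adj_mul', adj_mul', adj_adj'] at this
    rw [mul_assoc]
    exact this
  set e₂ := e - w * adjoint w with he₂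
  set f₂ := f - adjoint w * w with hf₂
  have he₂C : Cc S e₂ := he.sub (hwC.mul (hwC.adj hS))
  have hf₂C : Cc S f₂ := hf.sub ((hwC.adj hS).mul hwC)
  have he₂a : adjoint e₂ = e₂ := by rw [he₂, map_sub, adj_mul', adj_adj', hea]
  have hf₂a : adjoint f₂ = f₂ := by rw [hf₂, map_sub, adj_mul', adj_adj', hfad]
  have hee₂ : e * e₂ = e₂ := by rw [he₂, mul_sub, hee, ← mul_assoc, hew]
  have hf₂f : f₂ * f = f₂ := by rw [hf₂, sub_mul, hff, mul_assoc, hwf]
  have he₂e₂ : e₂ * e₂ = e₂ := by
    conv_lhs => rw [he₂]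
    rw [sub_mul, hee₂, he₂, mul_sub, mul_assoc w (adjoint w) e, hwe', ← mul_assoc (w * adjoint w),
      mul_assoc w (adjoint w) w, ← mul_assoc w, hpi, sub_self, sub_zero]
  have hf₂f₂ : f₂ * f₂ = f₂ := by
    conv_lhs => rw [hf₂]
    rw [mul_sub, ← hf₂, hf₂f, ← mul_assoc, hf₂, sub_mul f, hfw', hpi', sub_self, zero_mul,
      sub_zero]
  have he₂v : ∀ v ∈ A, e₂ * v = 0 := by
    intro v hv
    have h1 := hw1 ⟨v, hv⟩
    have h2 := hw2 ⟨v, hv⟩
    change w * adjoint v = v * adjoint v at h1
    change adjoint w * v = adjoint v * v at h2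
    rw [he₂, sub_mul, (hA.mem v hv).l, mul_assoc, h2, ← mul_assoc, h1, (hA.mem v hv).pi, sub_self]
  have hvf₂ : ∀ v ∈ A, v * f₂ = 0 := by
    intro v hv
    have h1 := congrArg adjoint (hw1 ⟨v, hv⟩)
    have h2 := congrArg adjoint (hw2 ⟨v, hv⟩)
    change adjoint (w * adjoint v) = adjoint (v * adjoint v) at h1
    change adjoint (adjoint w * v) = adjoint (adjoint v * v) at h2
    rw [adj_mul', adj_mul', adj_adj'] at h1 h2
    rw [hf₂, mul_sub, (hA.mem v hv).r, ← mul_assoc, h1, mul_assoc, h2, ← mul_assoc, adj_adj',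
      (hA.mem v hv).pi, sub_self]
  have key : e₂ = 0 ∨ f₂ = 0 := by
    by_contra hcon
    push Not at hcon
    obtain ⟨y, hy, hne⟩ := exists_conn hS hfac hf₂C hcon.1 hcon.2
    obtain ⟨a, q, haC, hqC, haa, hqa, hqq, hq0, hvq, hqf⟩ :=
      exists_pi hS ((he₂C.mul hy).mul hf₂C) hne
    set v := e₂ * y * f₂ * a * q with hv
    have hve : e₂ * v = v := by
      rw [hv]
      simp only [← mul_assoc]
      rw [he₂e₂]
    have hvf : v * f₂ = v := by
      rw [hv, mul_assoc, hqf f₂ hf₂a (by rw [mul_assoc, hf₂f₂])]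
    have hvne : v ≠ 0 := by
      intro h
      apply hq0
      rw [← hvq, h, mul_zero]
    have hvpi : v * adjoint v * v = v := by
      rw [mul_assoc, hvq, hv, mul_assoc _ q q, hqq]
    have hPv : Pw S e f v := by
      refine ⟨(((he₂C.mul hy).mul hf₂C).mul haC).mul hqC, ?_, ?_, hvpi, hvne⟩
      · rw [← hve, ← mul_assoc, hee₂]
      · rw [← hvf, mul_assoc, hf₂f]
    have ho : ∀ v' ∈ A, adjoint v * v' = 0 ∧ v * adjoint v' = 0 := by
      intro v' hv'
      constructor
      · have h1 : adjoint v = adjoint v * e₂ := by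
          have := congrArg adjoint hve
          rw [adj_mul', he₂a] at this
          exact this.symm
        rw [h1, mul_assoc, he₂v v' hv', mul_zero]
      · have h1 : f₂ * adjoint v' = 0 := by
          have := congrArg adjoint (hvf₂ v' hv')
          rw [adj_mul', hf₂a, map_zero] at this
          exact this
        rw [← hvf, mul_assoc, h1, mul_zero]
    have hB : Fam S e f (insert v A) := by
      refine ⟨?_, ?_⟩
      · rintro v' (rfl | hv')
        · exact hPv
        · exact hA.mem v' hv'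
      · rintro v₁ (rfl | h1) v₂ (rfl | h2) hne'
        · exact absurd rfl hne'
        · exact ho v₂ h2
        · obtain ⟨h3, h4⟩ := ho v₁ h1
          constructor
          · have := congrArg adjoint h3
            rwa [adj_mul', adj_adj', map_zero] at this
          · have := congrArg adjoint h4
            rwa [adj_mul', adj_adj', map_zero] at this
        · exact hA.orth v₁ h1 v₂ h2 hne'
    have hvA : v ∈ A := hmax _ hB (Set.subset_insert _ _) (Set.mem_insert _ _)
    exact hvne (by rw [← hve, he₂v v hvA])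
  have htw : ∑ i, ⟪ξ i, e₂ (ξ i)⟫_ℂ = ∑ i, ⟪ξ i, f₂ (ξ i)⟫_ℂ := by
    have h1 := htr w (adjoint w) hwC (hwC.adj hS)
    have h2 : ∀ (p r : H →L[ℂ] H), ∑ i, ⟪ξ i, (p - r) (ξ i)⟫_ℂ =
        ∑ i, ⟪ξ i, p (ξ i)⟫_ℂ - ∑ i, ⟪ξ i, r (ξ i)⟫_ℂ := by
      intro p r
      rw [← Finset.sum_sub_distrib]
      exact Finset.sum_congr rfl fun i _ => by
        rw [← inner_sub_right]; rfl
    rw [he₂, hf₂, h2, h2, ht, h1]
  have hz : ∀ p : H →L[ℂ] H, Cc S p → adjoint p = p → p * p = p →
      ∑ i, ⟪ξ i, p (ξ i)⟫_ℂ = 0 → p = 0 := by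
    intro p hp hpa hpp h0
    refine hfa p hp fun i => ?_
    have h1 : ∑ i, ‖p (ξ i)‖ ^ 2 = 0 := by
      have h2 := congrArg Complex.re h0
      rw [Complex.re_sum, Complex.zero_re] at h2
      rw [← h2]
      exact Finset.sum_congr rfl fun i _ => (proj_norm_le hpa hpp (ξ i)).1
    have h3 := (Finset.sum_eq_zero_iff_of_nonneg (fun i _ => by positivity)).1 h1 i
      (Finset.mem_univ i)
    exact norm_eq_zero.1 (pow_eq_zero_iff (two_ne_zero) |>.1 h3)
  have hE : e₂ = 0 ∧ f₂ = 0 := by
    rcases key with h | h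
    · refine ⟨h, hz f₂ hf₂C hf₂a hf₂f₂ ?_⟩
      rw [← htw, h]
      simp
    · refine ⟨hz e₂ he₂C he₂a he₂e₂ ?_, h⟩
      rw [htw, h]
      simp
  exact ⟨w, hwC, (sub_eq_zero.1 hE.2).symm, (sub_eq_zero.1 hE.1).symm⟩

end Vale.Agent.P092.H962.Eq
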