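import Vale.Agent.P092.H962.FinRR
import Vale.Agent.P092.H632.T.TorR

/-!
P092, project B: the final statement, all amplifications, any number of factors, all `Λ`.
-/

set_option linter.all false

open Filter Topology Matrix

namespace Vale.Agent.P092.H962

open Vale.Agent.P092.H160.St Vale.Agent.P092.H103.St Vale.Agent.P092.H515.St
  Vale.Agent.P092.SR.St Vale.Agent.P092.H971 Vale.Agent.P092.H58

/-- The torsion input (helper632, helper945, helper628). -/
theorem torRT (r : ℕ) : TorRT r fun _ _ => True :=
  fun n k _ _ _ Γ hn hlat hd hicc Λ _ hΛ _ I _ α hα j U hU =>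
    H632.T.torR Γ hn hlat hicc hΛ hα j (hd j) U hU

/-- **The final statement for two factors.** -/
theorem finalAllF' : FinalAllF := finalAllF_of (torRT 2)

/-- **The final statement for any number of factors.** -/
theorem finalAllR' : FinalAllR := finalAllR fun r _ => torRT r

end Vale.Agent.P092.H962
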