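import Vale.Agent.P092.H962.FinalT
import Vale.Agent.P092.H333.ErgJ

/-!
P092, project B: `ErgUR` from helper333's theorem, and the literal form of the torsion input.
-/

set_option linter.all false

open scoped InnerProductSpace
open Filter Topology ContinuousLinearMap Matrix

namespace Vale.Agent.P092.H962

open Vale.Agent.P092.H160 Vale.Agent.P092.H103 Vale.Agent.P092.SR Vale.Agent.P092.H971
  Vale.Agent.P092.H333

/-- the torsion-free groups -/
def TFree (Λ : Type) [Group Λ] : Prop := ∀ s : Λ, s ≠ 1 → ∀ n : ℕ, 0 < n → s ^ n ≠ 1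

/-- [ERG-UR] for torsion-free `Λ` -/
theorem ergUR_tf (r : ℕ) : ErgUR r TFree := by
  intro n k _ _ _ Γ hn hlat hd hicc Λ _ hΛ hT I _ α hα j U hU
  exact ergU_tf (Θ := U.comap (pj Γ j)) hα
    (fun h hh => ricc_sl hn Γ hlat j (hd j) hicc hh U hU) hT

/-- [TOR-RT] the torsion input, over all places -/
def TorRT (r : ℕ) (T : (Λ : Type) → [Group Λ] → Prop) : Prop :=
  ∀ (n : Fin r → ℕ) (k : Fin r → Type) [∀ j, NontriviallyNormedField (k j)]
    [∀ j, ProperSpace (k j)] [∀ j, IsUltrametricDist (k j)]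
    (Γ : Subgroup (∀ j, SpecialLinearGroup (Fin (n j)) (k j))), (∀ j, 2 ≤ n j) →
    H515.St.IsLattice Γ → (∀ j, DenseRange (pj Γ j)) →
    (∀ g : Γ, g ≠ 1 → Set.Infinite {y : Γ | ∃ h, y = h * g * h⁻¹}) →
    ∀ (Λ : Type) [Group Λ], (∀ s : Λ, s ≠ 1 → Set.Infinite {y : Λ | ∃ h, y = h * s * h⁻¹}) → T Λ →
    ∀ {I : Type} [Fintype I] (α : Γ → (Ell2 (I × Λ) →L[ℂ] Ell2 (I × Λ))) (hα : AF α)
      (j : Fin r) (U : Subgroup (SpecialLinearGroup (Fin (n j)) (k j))),
      IsOpen (U : Set (SpecialLinearGroup (Fin (n j)) (k j))) →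
      NoClsT hα ((U.comap (pj Γ j) : Subgroup Γ) : Set Γ)

/-- [ERG-UR] from the torsion input -/
theorem ergUR_of {r : ℕ} {T : (Λ : Type) → [Group Λ] → Prop} (h : TorRT r T) : ErgUR r T := by
  intro n k _ _ _ Γ hn hlat hd hicc Λ _ hΛ hT I _ α hα j U hU
  exact ergU_of (Θ := U.comap (pj Γ j)) hα
    (fun g hg => ricc_sl hn Γ hlat j (hd j) hicc hg U hU)
    (h n k Γ hn hlat hd hicc Λ hΛ hT α hα j U hU)

end Vale.Agent.P092.H962
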