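import Vale.Agent.P092.H962.FinalT
import Vale.Agent.P092.H962.Tr0
import Vale.Agent.P092.H761.FinT
import Vale.Agent.P092.H971.PlcAbs

/-!
P092, project B: `FinRT 2` from helper761's two-factor theorem.
-/

set_option linter.all false

open scoped InnerProductSpace
open Filter Topology ContinuousLinearMap Matrix

namespace Vale.Agent.P092.H962

open Vale.Agent.P092.H160 Vale.Agent.P092.H103 Vale.Agent.P092.SR Vale.Agent.P092.H971

/-- transport of [FIN] along an isomorphism of the source group -/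
theorem finN_equiv {Γ Γ' H H' ℋ : Type} [Group Γ] [Group Γ'] [Group H] [Group H']
    [TopologicalSpace H] [TopologicalSpace H'] [NormedAddCommGroup ℋ] [InnerProductSpace ℂ ℋ]
    [CompleteSpace ℋ] (e : Γ ≃* Γ') (pr : Γ' →* H) (pr' : Γ' →* H')
    (S T : Γ' →* (ℋ →L[ℂ] ℋ)) (sc : Set (ℋ →L[ℂ] ℋ)) (hT : ∀ g, adjoint (T g) = T g⁻¹)
    (h : FinN pr pr' S T sc) :
    FinN (pr.comp (e : Γ →* Γ')) (pr'.comp (e : Γ →* Γ')) (S.comp (e : Γ →* Γ'))
      (T.comp (e : Γ →* Γ')) sc := by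
  obtain ⟨K', K, hK', hK, x, ⟨hq1, hq2, hq3⟩, h0, hne, ζ, hζ, hs⟩ := h
  refine ⟨K', K, hK', hK, x, ⟨fun g hg => hq1 _ hg, fun g hg => hq2 _ hg, hq3⟩, h0, hne, ζ, hζ, ?_⟩
  have hF : Function.Injective (fun q : Γ ⧸ K.comap (pr'.comp (e : Γ →* Γ')) =>
      ((e q.out : Γ') : Γ' ⧸ K.comap pr')) := by
    intro q q' hqq
    have h1 : (e q.out)⁻¹ * e q'.out ∈ K.comap pr' := QuotientGroup.eq.1 hqq
    have h2 : (q.out)⁻¹ * q'.out ∈ K.comap (pr'.comp (e : Γ →* Γ')) := by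
      rw [Subgroup.mem_comap] at h1 ⊢
      simpa using h1
    have h3 := QuotientGroup.eq.2 h2
    rwa [QuotientGroup.out_eq', QuotientGroup.out_eq'] at h3
  have hs' := hs.comp_injective hF
  refine hs'.congr fun q => ?_
  obtain ⟨c, hc⟩ := QuotientGroup.mk_out_eq_mul (K.comap pr') (e q.out)
  have hcK : pr' (c : Γ') ∈ K := c.2
  simp only [Function.comp_apply]
  have h4 : ∀ w : ℋ, (⟪T (c : Γ')⁻¹ w, x (T (c : Γ')⁻¹ w)⟫_ℂ) = ⟪w, x w⟫_ℂ := by
    intro w
    have h5 : x (T (c : Γ')⁻¹ w) = T (c : Γ')⁻¹ (x w) := by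
      have := hq2 (c : Γ')⁻¹ (by rw [map_inv]; exact K.inv_mem hcK)
      exact DFunLike.congr_fun this w
    have h8 : T (c : Γ') (T (c : Γ')⁻¹ (x w)) = x w := by
      have h9 : T (c : Γ') * T (c : Γ')⁻¹ = 1 := by rw [← map_mul, mul_inv_cancel, map_one]
      exact DFunLike.congr_fun h9 (x w)
    rw [h5, ← hT, adjoint_inner_left, hT, h8]
  have h6 : T ((((e q.out : Γ') : Γ' ⧸ K.comap pr')).out)⁻¹ ζ
      = T (c : Γ')⁻¹ (T (e q.out)⁻¹ ζ) := by
    rw [hc, _root_.mul_inv_rev, map_mul]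
    rfl
  have h7 : (T.comp (e : Γ →* Γ')) (q.out)⁻¹ = T (e q.out)⁻¹ := by
    rw [MonoidHom.comp_apply]
    simp
  rw [h7, h6, h4]

/-- transport of the model along an isomorphism of the source group -/
theorem tri_equiv {ι Γ Γ' ℋ : Type} [Fintype ι] [Group Γ] [Group Γ'] [NormedAddCommGroup ℋ]
    [InnerProductSpace ℂ ℋ] [CompleteSpace ℋ] (e : Γ' ≃* Γ) {V R₁ R₂ : Γ →* (ℋ →L[ℂ] ℋ)}
    {ξ : ι → ℋ} (h : Tri V R₁ R₂ ξ) :
    Tri (V.comp (e : Γ' →* Γ)) (R₁.comp (e : Γ' →* Γ)) (R₂.comp (e : Γ' →* Γ)) ξ where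
  adjV g := by simpa using h.adjV (e g)
  adj₁ g := by simpa using h.adj₁ (e g)
  adj₂ g := by simpa using h.adj₂ (e g)
  comm₁ g k := h.comm₁ (e g) (e k)
  comm₂ g k := h.comm₂ (e g) (e k)
  comm₁₂ g k := h.comm₁₂ (e g) (e k)
  ne := h.ne
  frame η := by
    have h1 := h.frame η
    rw [← ((Equiv.refl ι).prodCongr (e.toEquiv.prodCongr e.toEquiv)).hasSum_iff] at h1
    exact h1

section two

variable {n : Fin 2 → ℕ} {k : Fin 2 → Type} [∀ j, NontriviallyNormedField (k j)]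

/-- families over `Fin 2` and pairs -/
def Efam (n : Fin 2 → ℕ) (k : Fin 2 → Type) [∀ j, NontriviallyNormedField (k j)] :
    (∀ j, SpecialLinearGroup (Fin (n j)) (k j)) ≃*
      SpecialLinearGroup (Fin (n 0)) (k 0) × SpecialLinearGroup (Fin (n 1)) (k 1) where
  toFun x := (x 0, x 1)
  invFun y := fun j => match j with
    | 0 => y.1
    | 1 => y.2
  left_inv x := by
    funext j
    match j with
    | 0 => rfl
    | 1 => rfl
  right_inv y := rfl
  map_mul' x y := rfl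

/-- the homomorphism `Efam` -/
abbrev Em (n : Fin 2 → ℕ) (k : Fin 2 → Type) [∀ j, NontriviallyNormedField (k j)] :
    (∀ j, SpecialLinearGroup (Fin (n j)) (k j)) →*
      SpecialLinearGroup (Fin (n 0)) (k 0) × SpecialLinearGroup (Fin (n 1)) (k 1) :=
  ↑(Efam n k)

theorem continuous_Efam : Continuous (Efam n k) :=
  (continuous_apply (0 : Fin 2)).prodMk (continuous_apply (1 : Fin 2))

theorem continuous_Efam_symm : Continuous (Efam n k).symm := by
  refine continuous_pi fun j => ?_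
  match j with
  | 0 => exact continuous_fst
  | 1 => exact continuous_snd

end two

/-- **[FIN-RT] for two factors.** -/
theorem finRT_two : FinRT 2 := by
  intro n k _ _ _ Γ hn hlat hd hicc ι ι' ℋ _ _ _ _ _ V R₁ R₂ ξ ξ' hT hT' i
  have hlat' : H515.St.IsLattice (Γ.map (Em n k)) := by
    haveI : LocallyCompactSpace (SpecialLinearGroup (Fin (n 0)) (k 0)) := lc_sl _ _
    haveI : LocallyCompactSpace (SpecialLinearGroup (Fin (n 1)) (k 1)) := lc_sl _ _
    exact H971.isLattice_equiv (Efam n k) continuous_Efam continuous_Efam_symm hlat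
  set Γ' := Γ.map (Em n k) with hΓ'
  let e : Γ ≃* Γ' := Γ.equivMapOfInjective (Em n k) (Efam n k).injective
  have htr : ∀ v : Γ', v ≠ 1 → ∑ l, ⟪ξ l, (V.comp (e.symm : Γ' →* Γ)) v (ξ l)⟫_ℂ = 0 :=
    fun v hv => tr0 hicc hT hT' (e.symm v) (by simpa using hv)
  obtain ⟨h0, h1⟩ := H761.fin_t (n 0) (n 1) (k 0) (k 1) Γ' (hn 0) (hn 1) hlat'
    (tri_equiv e.symm hT) (tri_equiv e.symm hT') htr
  have hV : (V.comp (e.symm : Γ' →* Γ)).comp (e : Γ →* Γ') = V := by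
    ext g; simp
  have hR₁ : (R₁.comp (e.symm : Γ' →* Γ)).comp (e : Γ →* Γ') = R₁ := by
    ext g; simp
  have hR₂ : Set.range (R₂.comp (e.symm : Γ' →* Γ)) = Set.range R₂ := by
    ext x
    constructor
    · rintro ⟨g, rfl⟩; exact ⟨e.symm g, rfl⟩
    · rintro ⟨g, rfl⟩; exact ⟨e g, by simp⟩
  have hadj : ∀ g, adjoint ((R₁.comp (e.symm : Γ' →* Γ)) g) = (R₁.comp (e.symm : Γ' →* Γ)) g⁻¹ :=
    (tri_equiv e.symm hT).adj₁
  have hp0 : (pj₁ Γ').comp (e : Γ →* Γ') = pj Γ 0 := rfl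
  have hp1 : (pj₂ Γ').comp (e : Γ →* Γ') = pj Γ 1 := rfl
  have key : ∀ {H H' : Type} [Group H] [Group H'] [TopologicalSpace H] [TopologicalSpace H']
      (pr : Γ' →* H) (pr' : Γ' →* H'), FinN pr pr' (V.comp (e.symm : Γ' →* Γ))
        (R₁.comp (e.symm : Γ' →* Γ)) (Set.range (R₂.comp (e.symm : Γ' →* Γ))) →
      FinN (pr.comp (e : Γ →* Γ')) (pr'.comp (e : Γ →* Γ')) V R₁ (Set.range R₂) := by
    intro H H' _ _ _ _ pr pr' h
    have := finN_equiv e pr pr' _ _ _ hadj h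
    rwa [hV, hR₁, hR₂] at this
  match i with
  | 0 =>
    rcases h0 with h | h
    · exact ⟨0, by have := key _ _ h; rwa [hp0] at this⟩
    · exact ⟨1, by have := key _ _ h; rwa [hp0, hp1] at this⟩
  | 1 =>
    rcases h1 with h | h
    · exact ⟨0, by have := key _ _ h; rwa [hp0, hp1] at this⟩
    · exact ⟨1, by have := key _ _ h; rwa [hp1] at this⟩

end Vale.Agent.P092.H962
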