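import Vale.Agent.P092.H962.FinalA
import Vale.Agent.P092.H793.FwR

/-!
P092, project B: all amplifications, any number of factors.
-/

set_option linter.all false

open Filter Topology Matrix

namespace Vale.Agent.P092.H962

open Vale.Agent.P092.H160.St Vale.Agent.P092.H103.St Vale.Agent.P092.H515.St
  Vale.Agent.P092.SR.St Vale.Agent.P092.H971 Vale.Agent.P092.H58

/-- [FIN-RT] for any number of factors (helper793, helper761). -/
theorem finRT_all (r : ℕ) : FinRT r := by
  intro n k _ _ _ Γ hn hlat hd hicc ι ι' ℋ _ _ _ _ _ V R₁ R₂ ξ ξ' hT hT' i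
  exact H793.fin_r n k Γ hn hlat hT hT' (fun v hv => tr0 hicc hT hT' v hv) i

/-- **All amplifications, any number of factors, the groups `Λ` with `T`.** -/
theorem superAllT_R {T : (Λ : Type) → [Group Λ] → Prop} (hT : ∀ r, 2 ≤ r → ErgUR r T)
    (Γ : Type) [Group Γ] (hΓ : PadicLattice Γ) : SuperAllT T Γ :=
  H58.lift (fun e => superAllT_equiv T e)
    (subForm_of fun r hr => subFormR_of (finRT_all r) (hT r hr)) Γ hΓ

/-- **All amplifications, any number of factors, `Λ` torsion-free.** -/
theorem superAll_tfR (Γ : Type) [Group Γ] (hΓ : PadicLattice Γ) : SuperAllT TFree Γ :=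
  superAllT_R (fun r _ => ergUR_tf r) Γ hΓ

/-- **All amplifications, any number of factors, all `Λ`.** -/
theorem finalAllR (hT : ∀ r, 2 ≤ r → TorRT r fun _ _ => True) : FinalAllR :=
  finalAllR_of (fun r _ => finRT_all r) hT

end Vale.Agent.P092.H962
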