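import Vale.Agent.P092.H962.FinR2
import Vale.Agent.P092.H962.ErgR2
import Vale.Agent.P092.H58.FinR
import Vale.Agent.P092.H58.Named

/-!
P092, project B: the final statements for all amplifications, from [FIN-RT] and [TOR-RT].
-/

set_option linter.all false

open Filter Topology Matrix

namespace Vale.Agent.P092.H962

open Vale.Agent.P092.H160.St Vale.Agent.P092.H103.St Vale.Agent.P092.H515.St
  Vale.Agent.P092.SR.St Vale.Agent.P092.H971 Vale.Agent.P092.H58

/-- The form for subgroups of a product of `r` factors. -/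
def SubFormR (r : ℕ) (P : ∀ (Γ : Type) [Group Γ], Prop) : Prop :=
  ∀ (n : Fin r → ℕ) (k : Fin r → Type) [∀ j, NontriviallyNormedField (k j)]
    [∀ j, ProperSpace (k j)] [∀ j, IsUltrametricDist (k j)]
    (Γ : Subgroup (∀ j, SpecialLinearGroup (Fin (n j)) (k j))),
    (∀ j, 2 ≤ n j) → IsLattice Γ → (∀ j, DenseRange (pj Γ j)) →
    (∀ g : Γ, g ≠ 1 → Set.Infinite {y : Γ | ∃ h, y = h * g * h⁻¹}) → P Γ

/-- `SuperAll` for the groups `Λ` with `T`. -/
def SuperAllT (T : (Λ : Type) → [Group Λ] → Prop) (Γ : Type) [Group Γ] : Prop :=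
  ∀ (Λ : Type) [Group Λ] [Countable Λ], ICC Λ → T Λ → ∀ (n : ℕ) (p : MOp n Λ), IsProj p →
    ∀ θ : CornerIso Γ Λ n p, mtr p = 1 ∧ CanonicalM θ

theorem subFormR_of {r : ℕ} (hF : FinRT r) {T : (Λ : Type) → [Group Λ] → Prop}
    (hT : ErgUR r T) : SubFormR r (SuperAllT T) := by
  intro n k _ _ _ Γ hn hlat hd hicc Λ _ _ hΛ hTΛ m q hq θ
  exact superAll_sub hF hT Γ hn hlat hd hicc hΛ hTΛ hq θ

theorem superAllT_equiv (T : (Λ : Type) → [Group Λ] → Prop) {Γ Γ' : Type} [Group Γ] [Group Γ']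
    (e : Γ ≃* Γ') (h : SuperAllT T Γ') : SuperAllT T Γ := fun Λ _ _ hΛ hT n p hp θ =>
  ⟨(h Λ hΛ hT n p hp (H133.transC e θ)).1, H133.canonicalM_transC e θ (h Λ hΛ hT n p hp _).2⟩

theorem subForm_of {P : ∀ (Γ : Type) [Group Γ], Prop} (h : ∀ r, 2 ≤ r → SubFormR r P) :
    SubForm P := by
  intro r n k _ _ _ Γ hr hn hlat hd hicc
  exact h r hr n k Γ hn hlat hd hicc

/-- From subgroups of two factors to the abstract letters. -/
theorem lift2 {P : ∀ (Γ : Type) [Group Γ], Prop}
    (hP : ∀ {Γ Γ' : Type} [Group Γ] [Group Γ'] (_ : Γ ≃* Γ'), P Γ' → P Γ) (h : SubFormR 2 P)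
    (Γ : Type) [Group Γ] (hΓ : PadicProductLattice Γ) : P Γ := by
  obtain ⟨hicc, k, l, _, _, m, n, i, hk, hl, huk, hul, hm, hn, hi⟩ := hΓ
  haveI := hk
  haveI := hl
  haveI := huk
  haveI := hul
  haveI := properK2 k l
  haveI := ultraK2 k l
  haveI : ∀ j, LocallyCompactSpace (S2 k l m n j) := fun j => by
    have : LocallyCompactSpace (Matrix (Fin (N2 m n j)) (Fin (N2 m n j)) (K2 k l j)) :=
      inferInstanceAs (LocallyCompactSpace (Fin _ → Fin _ → _))
    exact Matrix.SpecialLinearGroup.isClosedEmbedding_val.locallyCompactSpace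
  let i' : Γ →* ∀ j, S2 k l m n j := (E2 k l m n : _ →* _).comp i
  have hinj : Function.Injective i' := (E2 k l m n).injective.comp hi.inj
  have hlat : IsLattice i'.range := by
    have h1 := H971.isLattice_equiv (E2 k l m n) (continuous_E2 k l m n)
      (continuous_E2_symm k l m n) hi.lat
    rwa [MonoidHom.map_range] at h1
  have hdense : ∀ j, DenseRange fun g => i' g j := by
    intro j
    match j with
    | 0 => exact hi.dense₁
    | 1 => exact hi.dense₂
  have hn2 : ∀ j, 2 ≤ N2 m n j := by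
    intro j
    match j with
    | 0 => exact hm
    | 1 => exact hn
  refine hP (MonoidHom.ofInjective hinj) (h (N2 m n) (K2 k l) i'.range hn2 hlat (fun j => ?_)
    (H133.icc_equiv (MonoidHom.ofInjective hinj) hicc))
  refine (hdense j).mono ?_
  rintro _ ⟨g, rfl⟩
  exact ⟨⟨i' g, g, rfl⟩, rfl⟩

/-- **All amplifications, two factors, the groups `Λ` with `T`.** -/
theorem superAllT_two {T : (Λ : Type) → [Group Λ] → Prop} (hT : ErgUR 2 T) (Γ : Type) [Group Γ]
    (hΓ : PadicProductLattice Γ) : SuperAllT T Γ :=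
  lift2 (fun e => superAllT_equiv T e) (subFormR_of finRT_two hT) Γ hΓ

/-- **All amplifications, two factors, `Λ` torsion-free.** -/
theorem superAll_tf (Γ : Type) [Group Γ] (hΓ : PadicProductLattice Γ) : SuperAllT TFree Γ :=
  superAllT_two (ergUR_tf 2) Γ hΓ

/-- **All amplifications, two factors, all `Λ`.** -/
theorem finalAllF_of (hT : TorRT 2 fun _ _ => True) : FinalAllF := by
  have h1 : ∀ (Γ : Type) [Group Γ], PadicProductLattice Γ → SuperAll Γ :=
    fun Γ _ hΓ Λ _ _ hΛ n p hp θ =>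
      superAllT_two (T := fun _ _ => True) (ergUR_of hT) Γ hΓ Λ hΛ trivial n p hp θ
  exact ⟨h1, fun F _ _ n hn hc => h1 _ (H678.padic_SL n F hn hc)⟩

/-- **All amplifications, any number of factors, all `Λ`.** -/
theorem finalAllR_of (hF : ∀ r, 2 ≤ r → FinRT r) (hT : ∀ r, 2 ≤ r → TorRT r fun _ _ => True) :
    FinalAllR := by
  refine H58.finalAllR_of (subForm_of fun r hr => ?_)
  intro n k _ _ _ Γ hn hlat hd hicc Λ _ _ hΛ m q hq θ
  exact superAll_sub (T := fun _ _ => True) (hF r hr) (ergUR_of (hT r hr)) Γ hn hlat hd hicc hΛ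
    trivial hq θ

end Vale.Agent.P092.H962
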