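import Vale.Agent.P092.H962.MT5
import Vale.Agent.P092.H144.MatchR
import Vale.Agent.P092.H911.C56Stmt
import Vale.Agent.P092.H217.ThA
import Vale.Agent.P092.H941.C7R
import Vale.Agent.P092.H839.A1Stmt
import Vale.Agent.P092.H113.PassStmt
import Vale.Agent.P092.H971.PlcSL

/-!
P092, project B: all amplifications, any number `r ≥ 2` of factors `SL_n(k)`, from the analysis
(`FinRT`) and the ergodicity (`ErgUR`).
-/

set_option linter.all false

open scoped InnerProductSpace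
open Filter Topology ContinuousLinearMap Matrix

namespace Vale.Agent.P092.H962

open Vale.Agent.P092.H160 Vale.Agent.P092.H103 Vale.Agent.P092.SR Vale.Agent.P092.H971

/-- [FIN-RT] the analysis, for an abstract source representation -/
def FinRT (r : ℕ) : Prop :=
  ∀ (n : Fin r → ℕ) (k : Fin r → Type) [∀ j, NontriviallyNormedField (k j)]
    [∀ j, ProperSpace (k j)] [∀ j, IsUltrametricDist (k j)]
    (Γ : Subgroup (∀ j, SpecialLinearGroup (Fin (n j)) (k j))), (∀ j, 2 ≤ n j) →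
    H515.St.IsLattice Γ → (∀ j, DenseRange (pj Γ j)) →
    (∀ g : Γ, g ≠ 1 → Set.Infinite {y : Γ | ∃ h, y = h * g * h⁻¹}) →
    ∀ {ι ι' ℋ : Type} [Fintype ι] [Fintype ι'] [NormedAddCommGroup ℋ] [InnerProductSpace ℂ ℋ]
      [CompleteSpace ℋ] (V R₁ R₂ : Γ →* (ℋ →L[ℂ] ℋ)) (ξ : ι → ℋ) (ξ' : ι' → ℋ),
      Tri V R₁ R₂ ξ → Tri R₁ V R₂ ξ' → ∀ i, ∃ j, FinN (pj Γ i) (pj Γ j) V R₁ (Set.range R₂)

/-- [ERG-UR] the ergodicity of the one-leg model, over all places, for the groups `Λ` with `T` -/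
def ErgUR (r : ℕ) (T : (Λ : Type) → [Group Λ] → Prop) : Prop :=
  ∀ (n : Fin r → ℕ) (k : Fin r → Type) [∀ j, NontriviallyNormedField (k j)]
    [∀ j, ProperSpace (k j)] [∀ j, IsUltrametricDist (k j)]
    (Γ : Subgroup (∀ j, SpecialLinearGroup (Fin (n j)) (k j))), (∀ j, 2 ≤ n j) →
    H515.St.IsLattice Γ → (∀ j, DenseRange (pj Γ j)) →
    (∀ g : Γ, g ≠ 1 → Set.Infinite {y : Γ | ∃ h, y = h * g * h⁻¹}) →
    ∀ (Λ : Type) [Group Λ], (∀ s : Λ, s ≠ 1 → Set.Infinite {y : Λ | ∃ h, y = h * s * h⁻¹}) → T Λ →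
    ∀ {I : Type} [Fintype I] (α : Γ → (Ell2 (I × Λ) →L[ℂ] Ell2 (I × Λ))), AF α →
    ∀ (j : Fin r) (U : Subgroup (SpecialLinearGroup (Fin (n j)) (k j))),
      IsOpen (U : Set (SpecialLinearGroup (Fin (n j)) (k j))) → H333.ErgU α {g | pj Γ j g ∈ U}

theorem finI_quot {Γ ℋ ι : Type} [Group Γ] [Fintype ι] [NormedAddCommGroup ℋ]
    [InnerProductSpace ℂ ℋ] [CompleteSpace ℋ] {V R₁ R₂ : Γ →* (ℋ →L[ℂ] ℋ)} {ξ : ι → ℋ}
    (hT : Tri V R₁ R₂ ξ) {G G' : Type} [Group G] [Group G'] [TopologicalSpace G]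
    [TopologicalSpace G'] [IsTopologicalGroup G] [IsTopologicalGroup G']
    [Finite (Subgroup.center G)] [Finite (Subgroup.center G')] (p : Γ →* G) (p' : Γ →* G')
    (he : ErgAt V R₁ R₂ p) (hf : FinN p p' V R₁ (Set.range R₂)) :
    FinI ((QuotientGroup.mk' (Subgroup.center G)).comp p)
      ((QuotientGroup.mk' (Subgroup.center G')).comp p') V R₁ (Set.range R₂) := by
  have hscS : ∀ a ∈ Set.range R₂, ∀ g, a * V g = V g * a := by
    rintro _ ⟨g, rfl⟩ k; exact (hT.comm₂ k g).symm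
  have hscT : ∀ a ∈ Set.range R₂, ∀ g, a * R₁ g = R₁ g * a := by
    rintro _ ⟨g, rfl⟩ k; exact (hT.comm₁₂ k g).symm
  exact H113.passStmt _ _ _ _ _ _ _ hT.adjV hT.adj₁ hT.comm₁ hscS hscT
    (finI_of_finN H839.a1Stmt hT he hf)

/-- **All amplifications, abstract factors.** `Γ` with maps to the groups `A j` (finite centres,
good quotients), an analysis statement for all models and the ergodicity of the one-leg model. -/
theorem superAll_abs {r : ℕ} {A : Fin r → Type} [∀ j, Group (A j)] [∀ j, TopologicalSpace (A j)]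
    [∀ j, IsTopologicalGroup (A j)] [∀ j, Finite (Subgroup.center (A j))]
    (hG : ∀ j, GoodGrp (A j ⧸ Subgroup.center (A j))) {Γ : Type} [Group Γ] (p : ∀ j, Γ →* A j)
    (hp : Plc fun j => (QuotientGroup.mk' (Subgroup.center (A j))).comp (p j))
    (hicc : ∀ g : Γ, g ≠ 1 → Set.Infinite {y : Γ | ∃ h, y = h * g * h⁻¹})
    {Λ : Type} [Group Λ] (hΛ : ∀ s : Λ, s ≠ 1 → Set.Infinite {y : Λ | ∃ h, y = h * s * h⁻¹})
    {m : ℕ} {q : St.MOp m Λ} (hq : St.IsProj q) (θ : St.CornerIso Γ Λ m q)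
    (hU : ∀ (j : Fin r) (U : Subgroup (A j)), IsOpen (U : Set (A j)) →
      H333.ErgU (alf θ) {g | p j g ∈ U})
    (hFin : ∀ {ι ι' ℋ : Type} [Fintype ι] [Fintype ι'] [NormedAddCommGroup ℋ]
      [InnerProductSpace ℂ ℋ] [CompleteSpace ℋ] (V R₁ R₂ : Γ →* (ℋ →L[ℂ] ℋ)) (ξ : ι → ℋ)
      (ξ' : ι' → ℋ), Tri V R₁ R₂ ξ → Tri R₁ V R₂ ξ' → ∀ i, ∃ j,
        FinN (p i) (p j) V R₁ (Set.range R₂)) :
    St.mtr q = 1 ∧ St.CanonicalM θ := by
  have hα : AF (alf θ) := af_of hicc hq θ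
  set α := alf θ with hαd
  rw [st_iff hicc hΛ hq θ]
  simp only [q4_alf hicc θ]
  have eS : ∀ (β : Γ → (Ell2 (Fin m × Λ) →L[ℂ] Ell2 (Fin m × Λ))) (hβ : AF β) (i : Fin r),
      ErgAt (V3 hα hα hβ) (A3R hα hα hβ) (B3R hα hα hβ) (p i) := fun β hβ i =>
    ergAt_HH hΛ hα hα hβ fun U hUo => hU i U hUo
  have eP : ∀ (β : Γ → (Ell2 (Fin m × Λ) →L[ℂ] Ell2 (Fin m × Λ))) (hβ : AF β) (i : Fin r),
      ErgAt (V3 hα hα hβ) (A3R hα hα hβ) (B3R hα hα hβ)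
        ((QuotientGroup.mk' (Subgroup.center (A i))).comp (p i)) := fun β hβ i =>
    ergAt_HH hΛ hα hα hβ fun U hUo => by
      have h1 := hU i (U.comap (QuotientGroup.mk' (Subgroup.center (A i))))
        (hUo.preimage QuotientGroup.continuous_mk)
      exact h1
  refine core_t H144.matchRStmt H217.thAStmt H911.c5RStmt H911.c6RStmt H941.c7RStmt hΛ hα
    (H := fun i => A i ⧸ Subgroup.center (A i)) hG hp eP fun β hβ i => ?_
  obtain ⟨_, _, ξ, hT⟩ := exists_tri hα hα hβ hΛ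
  obtain ⟨_, _, ξ', hT'⟩ := exists_tri' hα hα hβ hΛ
  obtain ⟨j, hj⟩ := hFin _ _ _ ξ ξ' hT hT' i
  exact ⟨j, finI_quot hT _ _ (eS β hβ i) hj⟩

/-- **All amplifications, any number of factors.** -/
theorem superAll_sub {r : ℕ} (hFin : FinRT r) {T : (Λ : Type) → [Group Λ] → Prop}
    (hErg : ErgUR r T) {n : Fin r → ℕ} {k : Fin r → Type} [∀ j, NontriviallyNormedField (k j)]
    [∀ j, ProperSpace (k j)] [∀ j, IsUltrametricDist (k j)]
    (Γ : Subgroup (∀ j, SpecialLinearGroup (Fin (n j)) (k j))) (hn : ∀ j, 2 ≤ n j)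
    (hlat : H515.St.IsLattice Γ) (hd : ∀ j, DenseRange (pj Γ j))
    (hicc : ∀ g : Γ, g ≠ 1 → Set.Infinite {y : Γ | ∃ h, y = h * g * h⁻¹})
    {Λ : Type} [Group Λ] (hΛ : ∀ s : Λ, s ≠ 1 → Set.Infinite {y : Λ | ∃ h, y = h * s * h⁻¹})
    (hTΛ : T Λ) {m : ℕ} {q : St.MOp m Λ} (hq : St.IsProj q) (θ : St.CornerIso Γ Λ m q) :
    St.mtr q = 1 ∧ St.CanonicalM θ := by
  haveI : ∀ j, Finite (Subgroup.center (SpecialLinearGroup (Fin (n j)) (k j))) :=
    fun j => H793.finite_center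
  exact superAll_abs (A := fun j => SpecialLinearGroup (Fin (n j)) (k j))
    (fun i => gfStmt (n i) (k i) (hn i)) (pj Γ) (plc_sl hn Γ hlat hd hicc) hicc hΛ hq θ
    (fun j U hUo => hErg n k Γ hn hlat hd hicc Λ hΛ hTΛ (alf θ) (af_of hicc hq θ) j U hUo)
    (fun V R₁ R₂ ξ ξ' hT hT' i => hFin n k Γ hn hlat hd hicc V R₁ R₂ ξ ξ' hT hT' i)

end Vale.Agent.P092.H962
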