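import Vale.Agent.P092.H962.MT1

/-!
The amplified model: the product of the three projections is nonzero; tensor products of Parseval
frames.
-/

set_option linter.all false

open scoped InnerProductSpace ENNReal
open Filter Topology ContinuousLinearMap
open Vale.Agent.P092.H160 Vale.Agent.P092.H103

namespace Vale.Agent.P092.H962

/-! ### Nonvanishing -/

section ne

variable {I J K Λ : Type} [Group Λ]

theorem diag_ne {x : Ell2 (I × Λ) →L[ℂ] Ell2 (I × Λ)} (hx : EqM x) (hs : adjoint x = x)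
    (hi : x * x = x) (h0 : x ≠ 0) : ∃ i, x (dl (i, 1)) (i, 1) ≠ 0 := by
  by_contra hcon
  push Not at hcon
  apply h0
  apply op_ext
  rintro ⟨i, a⟩
  have h1 : ⟪x (dl (i, 1)), x (dl (i, 1))⟫_ℂ = 0 := by
    have h2 : x (x (dl (i, 1))) = x (dl (i, 1)) :=
      congrArg (fun T : Ell2 (I × Λ) →L[ℂ] Ell2 (I × Λ) => T (dl (i, 1))) hi
    have h3 : ⟪x (dl (i, 1)), x (dl (i, 1))⟫_ℂ = ⟪dl (i, 1), x (x (dl (i, 1)))⟫_ℂ := by
      conv_lhs => rw [← hs]
      rw [adjoint_inner_left, hs]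
    rw [h3, h2, inner_dl, hcon i]
  rw [inner_self_eq_zero] at h1
  rw [FS.mat_dl, hx, h1, map_zero]
  rfl

theorem tendsto_coord (g : Ell2 Λ) : Tendsto (fun s => g s) cofinite (𝓝 0) := by
  have h := (summable_sq g).tendsto_cofinite_zero
  have h2 : Tendsto (fun s => ‖g s‖) cofinite (𝓝 0) := by
    have h3 := (Real.continuous_sqrt.tendsto 0).comp h
    rw [Real.sqrt_zero] at h3
    refine h3.congr fun s => ?_
    exact Real.sqrt_sq (norm_nonneg _)
  exact tendsto_zero_iff_norm_tendsto_zero.mpr h2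

theorem P_ne (hΛ : ∀ s : Λ, s ≠ 1 → Set.Infinite {y : Λ | ∃ h, y = h * s * h⁻¹})
    {x : Ell2 (I × Λ) →L[ℂ] Ell2 (I × Λ)} (hx : EqM x) (hxs : adjoint x = x) (hxi : x * x = x)
    (hx0 : x ≠ 0) {y : Ell2 (J × Λ) →L[ℂ] Ell2 (J × Λ)} (hy : EqM y) (hys : adjoint y = y)
    (hyi : y * y = y) (hy0 : y ≠ 0) {z : Ell2 (K × Λ) →L[ℂ] Ell2 (K × Λ)} (hz : EqM z)
    (hzs : adjoint z = z) (hzi : z * z = z) (hz0 : z ≠ 0) :
    VT J K x * R1T I K y * R2T I J z ≠ 0 := by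
  intro h0
  obtain ⟨i, hi⟩ := diag_ne hx hxs hxi hx0
  obtain ⟨j, hj⟩ := diag_ne hy hys hyi hy0
  obtain ⟨k, hk⟩ := diag_ne hz hzs hzi hz0
  set f : Λ → ℂ := fun s => JT z (dl (k, 1)) (k, s) * (starRingEnd ℂ) (x (dl (i, 1)) (i, s)) with hf
  set g : Ell2 Λ := sl (JT y (dl (j, 1))) j with hg
  have hfs : Summable fun s => ‖f s‖ := by
    have h1 := (hasSum_inner' (sl (x (dl (i, 1))) i) (sl (JT z (dl (k, 1))) k)).summable
    exact h1.norm
  -- the diagonal coefficients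
  have key : ∀ c : Λ, ∑' s, f s * g (c * s * c⁻¹) = 0 := by
    intro c
    have e0 : ⟪VT J K x (dl (i, ((j, c⁻¹), (k, 1)))),
        R1T I K y (R2T I J z (dl (i, ((j, c⁻¹), (k, 1)))))⟫_ℂ = 0 := by
      have e1 : VT J K x (R1T I K y (R2T I J z (dl (i, ((j, c⁻¹), (k, 1)))))) = 0 :=
        congrArg (fun T : Ell2 (I × ((J × Λ) × (K × Λ))) →L[ℂ] Ell2 (I × ((J × Λ) × (K × Λ))) =>
          T (dl (i, ((j, c⁻¹), (k, 1))))) h0
      rw [← adjoint_inner_right, VT_adj, hxs, e1, inner_zero_right]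
    have e2 : R1T I K y (R2T I J z (dl (i, ((j, c⁻¹), (k, 1))))) =
        tv (dl i) (tv (JT y (dl (j, c⁻¹))) (JT z (dl (k, 1)))) := by
      rw [R2T, tens_dl, tens_dl, R1T, tens_tv, tens_tv]
      rfl
    rw [e2, inner_eq] at e0
    have hinj : Function.Injective (fun s : Λ => ((i, ((j, s * c⁻¹), (k, s))) :
        I × ((J × Λ) × (K × Λ)))) := by
      intro s t h
      simp only [Prod.mk.injEq] at h
      exact h.2.2.2
    rw [← hinj.tsum_eq] at e0
    · rw [← e0]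
      refine tsum_congr fun s => ?_
      change f s * g (c * s * c⁻¹) = (dl i : Ell2 I) i * (JT y (dl (j, c⁻¹)) (j, s * c⁻¹) *
        JT z (dl (k, 1)) (k, s)) * (starRingEnd ℂ) (VT J K x (dl (i, ((j, c⁻¹), (k, 1))))
          (i, ((j, s * c⁻¹), (k, s))))
      rw [VT_coord, dl_self, one_mul]
      have e3 : (s * c⁻¹)⁻¹ * s = c⁻¹⁻¹ * 1 := by group
      have e4 : x (dl (i, c⁻¹)) (i, s * c⁻¹) = x (dl (i, 1)) (i, s) := by
        have := hx.coef i i 1 s c⁻¹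
        rwa [one_mul] at this
      have e5 : JT y (dl (j, c⁻¹)) (j, s * c⁻¹) = JT y (dl (j, 1)) (j, c * s * c⁻¹) := by
        have := hy.coefJ j j 1 (c * s * c⁻¹) c⁻¹
        rw [mul_one] at this
        rw [← this]
        congr 2
        group
      rw [e3, dl_self, mul_one, e4, e5]
      change JT z (dl (k, 1)) (k, s) * (starRingEnd ℂ) (x (dl (i, 1)) (i, s)) *
        JT y (dl (j, 1)) (j, c * s * c⁻¹) = _
      ring
    · rintro ⟨i', ⟨j', a'⟩, ⟨k', b'⟩⟩ hne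
      rw [Function.mem_support] at hne
      refine ⟨b', ?_⟩
      have hne' : (dl i : Ell2 I) i' * (JT y (dl (j, c⁻¹)) (j', a') * JT z (dl (k, 1)) (k', b')) *
        (starRingEnd ℂ) (VT J K x (dl (i, ((j, c⁻¹), (k, 1)))) (i', ((j', a'), (k', b')))) ≠ 0 := hne
      rw [VT_coord] at hne'
      have g1 : (dl i : Ell2 I) i' ≠ 0 := fun h => hne' (by rw [h]; simp)
      have g3 : (dl (j, (k, c⁻¹⁻¹ * 1)) : Ell2 (J × (K × Λ))) (j', (k', a'⁻¹ * b')) ≠ 0 :=
        fun h => hne' (by rw [h]; simp)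
      have g1 := dl_val_one g1
      have g3 := dl_val_one g3
      simp only [Prod.mk.injEq] at g3
      obtain ⟨g3, g3', g3''⟩ := g3
      subst g1 g3 g3'
      have h5 : b' * c⁻¹ = a' := by
        have h6 := congrArg (fun t => a' * t * c⁻¹) g3''
        simp only [mul_inv_cancel_left, inv_inv, mul_one, mul_inv_cancel_right] at h6
        exact h6
      rw [← h5]
  -- the limit
  haveI := nf_neBot (MonoidHom.id Λ) (fun s hs => hΛ s hs)
  have hlim : Tendsto (fun c : Λ => ∑' s, f s * g (c * s * c⁻¹)) (nf (MonoidHom.id Λ))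
      (𝓝 (∑' s, f s * ((dl (1 : Λ) : Ell2 Λ) s * g 1))) := by
    refine tendsto_tsum_of_dominated_convergence (bound := fun s => ‖f s‖ * ‖g‖)
      (hfs.mul_right _) (fun s => ?_) (Eventually.of_forall fun c s => ?_)
    · refine Tendsto.const_mul _ ?_
      by_cases hs : s = 1
      · subst hs
        rw [dl_self, one_mul]
        refine tendsto_const_nhds.congr fun c => ?_
        rw [mul_one, mul_inv_cancel]
      · rw [dl_ne hs, zero_mul]
        exact (tendsto_coord g).comp (nf_tendsto (MonoidHom.id Λ) hs)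
    · rw [norm_mul]
      gcongr
      exact norm_coord_le g _
  have h1 : ∑' s, f s * ((dl (1 : Λ) : Ell2 Λ) s * g 1) = f 1 * g 1 := by
    rw [tsum_eq_single 1, dl_self, one_mul]
    intro s hs
    rw [dl_ne hs, zero_mul, mul_zero]
  rw [h1] at hlim
  have h2 : f 1 * g 1 = 0 := by
    refine tendsto_nhds_unique hlim ?_
    simp only [key]
    exact tendsto_const_nhds
  have h3 : f 1 * g 1 = (starRingEnd ℂ) (z (dl (k, 1)) (k, 1)) *
      (starRingEnd ℂ) (x (dl (i, 1)) (i, 1)) * (starRingEnd ℂ) (y (dl (j, 1)) (j, 1)) := by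
    change JT z (dl (k, 1)) (k, 1) * (starRingEnd ℂ) (x (dl (i, 1)) (i, 1)) *
      JT y (dl (j, 1)) (j, 1) = _
    rw [JT_coord, JT_coord, inv_one]
  rw [h3, ← map_mul, ← map_mul] at h2
  have h4 := (map_eq_zero (starRingEnd ℂ)).mp h2
  rcases mul_eq_zero.mp h4 with h5 | h5
  · rcases mul_eq_zero.mp h5 with h6 | h6
    · exact hk h6
    · exact hi h6
  · exact hj h5

end ne

/-! ### Parseval frames -/

section frame

theorem hs_iff {ι : Type} {f : ι → ℝ} (hf : ∀ i, 0 ≤ f i) {a : ℝ} (ha : 0 ≤ a) :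
    HasSum f a ↔ ∑' i, ENNReal.ofReal (f i) = ENNReal.ofReal a := by
  constructor
  · intro h
    rw [← ENNReal.ofReal_tsum_of_nonneg hf h.summable, h.tsum_eq]
  · intro h
    have h1 : Summable fun i => (ENNReal.ofReal (f i)).toReal :=
      ENNReal.summable_toReal (by rw [h]; exact ENNReal.ofReal_ne_top)
    have h2 : Summable f := h1.congr fun i => ENNReal.toReal_ofReal (hf i)
    have h3 := h2.hasSum
    have h4 : ∑' i, f i = a := by
      rw [← ENNReal.ofReal_tsum_of_nonneg hf h2] at h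
      exact (ENNReal.ofReal_eq_ofReal_iff (tsum_nonneg hf) ha).mp h
    rwa [h4] at h3

variable {A B X Y : Type}

theorem inner_tvdl (x : X) (u : Ell2 Y) (f : Ell2 (X × Y)) :
    ⟪tv (dl x) u, f⟫_ℂ = ⟪u, sl f x⟫_ℂ := by
  have h1 := hasSum_inner' (tv (dl x) u) f
  have h2 := hasSum_inner' u (sl f x)
  have hi : Function.Injective (fun y : Y => (x, y)) := Prod.mk_right_injective x
  rw [← hi.hasSum_iff] at h1
  · refine h1.unique ?_
    refine h2.congr_fun ?_ |> id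
    intro y
    change f (x, y) * (starRingEnd ℂ) ((dl x : Ell2 X) x * u y) = f (x, y) * (starRingEnd ℂ) (u y)
    rw [dl_self, one_mul]
  · rintro ⟨x', y⟩ hp
    have hx : x' ≠ x := fun h => hp ⟨y, by rw [h]⟩
    change f (x', y) * (starRingEnd ℂ) ((dl x : Ell2 X) x' * u y) = 0
    rw [dl_ne hx, zero_mul, map_zero, mul_zero]

theorem adj_tvl_apply (v : Ell2 Y) (F : Ell2 (X × Y)) (x : X) :
    adjoint (tvl v) F x = ⟪v, sl F x⟫_ℂ := by
  rw [← inner_dl, adjoint_inner_right, tvl_apply, inner_tvdl]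

theorem adj_tvl_tens (v : Ell2 Y) (P : Ell2 X →L[ℂ] Ell2 X) (F : Ell2 (X × Y)) :
    adjoint (tvl v) (tens P 1 F) = P (adjoint (tvl v) F) := by
  refine ext_inner_left ℂ fun u => ?_
  rw [adjoint_inner_right, tvl_apply, ← adjoint_inner_left, adjoint_tens, tens_tv, adjoint_one,
    ← adjoint_inner_left P, adjoint_inner_right, tvl_apply]
  rfl

theorem frame_tens (u : A → Ell2 X) (v : B → Ell2 Y) (P : Ell2 X →L[ℂ] Ell2 X)
    (Q : Ell2 Y →L[ℂ] Ell2 Y) (hu : ∀ f, HasSum (fun a => ‖⟪u a, f⟫_ℂ‖ ^ 2) (‖P f‖ ^ 2))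
    (hv : ∀ f, HasSum (fun b => ‖⟪v b, f⟫_ℂ‖ ^ 2) (‖Q f‖ ^ 2)) (F : Ell2 (X × Y)) :
    HasSum (fun p : A × B => ‖⟪tv (u p.1) (v p.2), F⟫_ℂ‖ ^ 2) (‖tens P Q F‖ ^ 2) := by
  have hu' : ∀ f, ∑' a, ENNReal.ofReal (‖⟪u a, f⟫_ℂ‖ ^ 2) = ENNReal.ofReal (‖P f‖ ^ 2) := fun f =>
    (hs_iff (fun _ => by positivity) (by positivity)).mp (hu f)
  have hv' : ∀ f, ∑' b, ENNReal.ofReal (‖⟪v b, f⟫_ℂ‖ ^ 2) = ENNReal.ofReal (‖Q f‖ ^ 2) := fun f =>
    (hs_iff (fun _ => by positivity) (by positivity)).mp (hv f)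
  rw [hs_iff (fun _ => by positivity) (by positivity),
    ENNReal.tsum_prod (f := fun a b => ENNReal.ofReal (‖⟪tv (u a) (v b), F⟫_ℂ‖ ^ 2)),
    ENNReal.tsum_comm]
  set F' : Ell2 (X × Y) := tens P 1 F with hF'
  have h1 : ∀ b, ∑' a, ENNReal.ofReal (‖⟪tv (u a) (v b), F⟫_ℂ‖ ^ 2) =
      ∑' x, ENNReal.ofReal (‖⟪v b, sl F' x⟫_ℂ‖ ^ 2) := by
    intro b
    have h2 : ∀ a, ⟪tv (u a) (v b), F⟫_ℂ = ⟪u a, adjoint (tvl (v b)) F⟫_ℂ := by
      intro a
      rw [adjoint_inner_right, tvl_apply]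
    simp only [h2]
    rw [hu', ← adj_tvl_tens]
    have h3 := (hs_iff (f := fun x => ‖adjoint (tvl (v b)) F' x‖ ^ 2) (fun _ => by positivity)
      (a := ‖adjoint (tvl (v b)) F'‖ ^ 2) (by positivity)).mp (by
        rw [norm_sq]
        exact (summable_sq _).hasSum)
    rw [← h3]
    refine tsum_congr fun x => ?_
    rw [adj_tvl_apply]
  have h4 : tens P Q F = ampR X Q F' := by
    have h5 : tens P Q = tens 1 Q * tens P 1 := by rw [← tens_mul, one_mul, mul_one]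
    rw [h5]
    change tens 1 Q (tens P 1 F) = _
    rw [← hF']
    have h6 : tens (1 : Ell2 X →L[ℂ] Ell2 X) Q = ampR X Q := by
      apply op_ext
      rintro ⟨x, y⟩
      rw [tens_dl, dl_prod, ampR_tv]
      rfl
    rw [h6]
  simp only [h1]
  rw [ENNReal.tsum_comm]
  simp only [hv']
  rw [h4]
  have h7 := (hs_iff (f := fun x => ‖sl (ampR X Q F') x‖ ^ 2) (fun _ => by positivity)
    (a := ‖ampR X Q F'‖ ^ 2) (by positivity)).mp (hasSum_sl _)
  rw [← h7]
  refine tsum_congr fun x => ?_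
  rw [sl_ampR]

/-- the orthonormal basis as a frame -/
theorem frame_dl (f : Ell2 X) : HasSum (fun x => ‖⟪(dl x : Ell2 X), f⟫_ℂ‖ ^ 2)
    (‖(1 : Ell2 X →L[ℂ] Ell2 X) f‖ ^ 2) := by
  have h : ‖(1 : Ell2 X →L[ℂ] Ell2 X) f‖ ^ 2 = ‖f‖ ^ 2 := rfl
  rw [h, norm_sq]
  simp only [inner_dl]
  exact (summable_sq f).hasSum

end frame

end Vale.Agent.P092.H962
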