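import Vale.Agent.P092.H962.MT2
import Vale.Agent.P092.H58.Frame
import Vale.Agent.P092.SR.Defs

/-!
The amplified model: the three representations on `HH(α, β, γ)`, the Parseval frame, the flip and
the swap.
-/

set_option linter.all false

open scoped InnerProductSpace ENNReal
open Filter Topology ContinuousLinearMap
open Vale.Agent.P092.H160 Vale.Agent.P092.H103

namespace Vale.Agent.P092.H962

/-! ### Compressions -/

section cut

variable {W : Type} [NormedAddCommGroup W] [InnerProductSpace ℂ W] [CompleteSpace W]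
  {P : W →L[ℂ] W} (hP : P * P = P)

theorem cmp_val {x : W →L[ℂ] W} (hc : P * x = x * P) (w : HH P) : (cmp P hP x w : W) = x w := by
  rw [cmp_coe]
  have h1 : P (x w) = x (P w) := congrArg (fun T : W →L[ℂ] W => T w) hc
  rw [h1, show P w = w from w.2]

theorem cmp_mul' {x y : W →L[ℂ] W} (hx : P * x = x * P) (hy : P * y = y * P) :
    cmp P hP (x * y) = cmp P hP x * cmp P hP y := by
  ext1 w
  apply Subtype.ext
  have hxy : P * (x * y) = (x * y) * P := by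
    rw [← mul_assoc, hx, mul_assoc, hy, mul_assoc]
  rw [cmp_val hP hxy]
  change _ = ((cmp P hP x (cmp P hP y w) : HH P) : W)
  rw [cmp_val hP hx, cmp_val hP hy]
  rfl

theorem cmp_adj {x x' : W →L[ℂ] W} (hx : P * x = x * P) (hx' : P * x' = x' * P)
    (h : adjoint x = x') : adjoint (cmp P hP x) = cmp P hP x' := by
  refine ((ContinuousLinearMap.eq_adjoint_iff _ _).mpr fun u v => ?_).symm
  rw [Submodule.coe_inner, Submodule.coe_inner, cmp_val hP hx, cmp_val hP hx', ← h,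
    adjoint_inner_left]

end cut

section model

variable {Γ Λ I J K : Type} [Group Γ] [Group Λ] [Fintype I] [Fintype J] [Fintype K]
  {α : Γ → (Ell2 (I × Λ) →L[ℂ] Ell2 (I × Λ))} {β : Γ → (Ell2 (J × Λ) →L[ℂ] Ell2 (J × Λ))}
  {γ : Γ → (Ell2 (K × Λ) →L[ℂ] Ell2 (K × Λ))}

/-- The projection cutting down to the model. -/
noncomputable def PT (α : Γ → (Ell2 (I × Λ) →L[ℂ] Ell2 (I × Λ)))
    (β : Γ → (Ell2 (J × Λ) →L[ℂ] Ell2 (J × Λ))) (γ : Γ → (Ell2 (K × Λ) →L[ℂ] Ell2 (K × Λ))) :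
    Ell2 (I × ((J × Λ) × (K × Λ))) →L[ℂ] Ell2 (I × ((J × Λ) × (K × Λ))) :=
  VT J K (α 1) * R1T I K (β 1) * R2T I J (γ 1)

variable (hα : AF α) (hβ : AF β) (hγ : AF γ)

include hα hβ in
theorem cAB (g h : Γ) : VT J K (α g) * R1T I K (β h) = R1T I K (β h) * VT J K (α g) :=
  comm_VR1 (hα.comm g) (hβ.comm h)

include hα hγ in
theorem cAC (g h : Γ) : VT J K (α g) * R2T I J (γ h) = R2T I J (γ h) * VT J K (α g) :=
  comm_VR2 (hα.comm g) (hγ.comm h)

include hα in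
theorem VT_hom (g h : Γ) : VT J K (α (g * h)) = VT J K (α g) * VT J K (α h) := by
  rw [hα.mul, VT_mul]

include hβ in
theorem R1T_hom (g h : Γ) : R1T I K (β (g * h)) = R1T I K (β g) * R1T I K (β h) := by
  rw [hβ.mul, R1T_mul]

include hγ in
theorem R2T_hom (g h : Γ) : R2T I J (γ (g * h)) = R2T I J (γ g) * R2T I J (γ h) := by
  rw [hγ.mul, R2T_mul]

/-- abstract computation with three commuting families -/
theorem three_comm {M : Type} [Monoid M] {A B C : Γ → M} (hA : ∀ g h, A (g * h) = A g * A h)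
    (hB : ∀ g h, B (g * h) = B g * B h) (hC : ∀ g h, C (g * h) = C g * C h)
    (hAB : ∀ g h, A g * B h = B h * A g) (hAC : ∀ g h, A g * C h = C h * A g)
    (hBC : ∀ g h, B g * C h = C h * B g) :
    (A 1 * B 1 * C 1) * (A 1 * B 1 * C 1) = A 1 * B 1 * C 1 ∧
    (∀ g, (A 1 * B 1 * C 1) * A g = A g * (A 1 * B 1 * C 1)) ∧
    (∀ g, (A 1 * B 1 * C 1) * B g = B g * (A 1 * B 1 * C 1)) ∧
    (∀ g, (A 1 * B 1 * C 1) * C g = C g * (A 1 * B 1 * C 1)) ∧
    A 1 * (A 1 * B 1 * C 1) = A 1 * B 1 * C 1 ∧ B 1 * (A 1 * B 1 * C 1) = A 1 * B 1 * C 1 ∧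
    C 1 * (A 1 * B 1 * C 1) = A 1 * B 1 * C 1 := by
  have a1 : ∀ g, A g * A 1 = A g := fun g => by rw [← hA, mul_one]
  have a2 : ∀ g, A 1 * A g = A g := fun g => by rw [← hA, one_mul]
  have b1 : ∀ g, B g * B 1 = B g := fun g => by rw [← hB, mul_one]
  have b2 : ∀ g, B 1 * B g = B g := fun g => by rw [← hB, one_mul]
  have c1 : ∀ g, C g * C 1 = C g := fun g => by rw [← hC, mul_one]
  have c2 : ∀ g, C 1 * C g = C g := fun g => by rw [← hC, one_mul]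
  have kA : ∀ g, (A 1 * B 1 * C 1) * A g = A g * (A 1 * B 1 * C 1) := by
    intro g
    calc (A 1 * B 1 * C 1) * A g = A 1 * B 1 * (C 1 * A g) := mul_assoc _ _ _
      _ = A 1 * B 1 * (A g * C 1) := by rw [hAC]
      _ = A 1 * (B 1 * A g) * C 1 := by simp only [mul_assoc]
      _ = A 1 * (A g * B 1) * C 1 := by rw [hAB]
      _ = (A 1 * A g) * B 1 * C 1 := by simp only [mul_assoc]
      _ = (A g * A 1) * B 1 * C 1 := by rw [a1, a2]
      _ = _ := by simp only [mul_assoc]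
  have kB : ∀ g, (A 1 * B 1 * C 1) * B g = B g * (A 1 * B 1 * C 1) := by
    intro g
    calc (A 1 * B 1 * C 1) * B g = A 1 * B 1 * (C 1 * B g) := mul_assoc _ _ _
      _ = A 1 * B 1 * (B g * C 1) := by rw [hBC]
      _ = A 1 * (B 1 * B g) * C 1 := by simp only [mul_assoc]
      _ = A 1 * (B g * B 1) * C 1 := by rw [b1, b2]
      _ = (A 1 * B g) * B 1 * C 1 := by simp only [mul_assoc]
      _ = (B g * A 1) * B 1 * C 1 := by rw [hAB]
      _ = _ := by simp only [mul_assoc]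
  have kC : ∀ g, (A 1 * B 1 * C 1) * C g = C g * (A 1 * B 1 * C 1) := by
    intro g
    calc (A 1 * B 1 * C 1) * C g = A 1 * B 1 * (C 1 * C g) := mul_assoc _ _ _
      _ = A 1 * B 1 * (C g * C 1) := by rw [c1, c2]
      _ = A 1 * (B 1 * C g) * C 1 := by simp only [mul_assoc]
      _ = A 1 * (C g * B 1) * C 1 := by rw [hBC]
      _ = (A 1 * C g) * B 1 * C 1 := by simp only [mul_assoc]
      _ = (C g * A 1) * B 1 * C 1 := by rw [hAC]
      _ = _ := by simp only [mul_assoc]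
  have lA : A 1 * (A 1 * B 1 * C 1) = A 1 * B 1 * C 1 := by
    rw [← mul_assoc, ← mul_assoc, a1]
  have lC : C 1 * (A 1 * B 1 * C 1) = A 1 * B 1 * C 1 := by
    rw [← kC, mul_assoc, c1]
  have lB : B 1 * (A 1 * B 1 * C 1) = A 1 * B 1 * C 1 := by
    rw [← kB]
    calc (A 1 * B 1 * C 1) * B 1 = A 1 * B 1 * (C 1 * B 1) := mul_assoc _ _ _
      _ = A 1 * B 1 * (B 1 * C 1) := by rw [hBC]
      _ = A 1 * (B 1 * B 1) * C 1 := by simp only [mul_assoc]
      _ = _ := by rw [b1]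
  refine ⟨?_, kA, kB, kC, lA, lB, lC⟩
  calc (A 1 * B 1 * C 1) * (A 1 * B 1 * C 1) = A 1 * (B 1 * (C 1 * (A 1 * B 1 * C 1))) := by
        simp only [mul_assoc]
    _ = _ := by rw [lC, lB, lA]

include hα hβ hγ

theorem PT_three :
    PT α β γ * PT α β γ = PT α β γ ∧
    (∀ g, PT α β γ * VT J K (α g) = VT J K (α g) * PT α β γ) ∧
    (∀ g, PT α β γ * R1T I K (β g) = R1T I K (β g) * PT α β γ) ∧
    (∀ g, PT α β γ * R2T I J (γ g) = R2T I J (γ g) * PT α β γ) ∧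
    VT J K (α 1) * PT α β γ = PT α β γ ∧ R1T I K (β 1) * PT α β γ = PT α β γ ∧
    R2T I J (γ 1) * PT α β γ = PT α β γ :=
  three_comm (A := fun g => VT J K (α g)) (B := fun g => R1T I K (β g))
    (C := fun g => R2T I J (γ g)) (VT_hom hα) (R1T_hom hβ) (R2T_hom hγ) (cAB hα hβ) (cAC hα hγ)
    fun g h => comm_R1R2 _ _

theorem PT_adj : adjoint (PT α β γ) = PT α β γ := by
  have h2 : ∀ S T : Ell2 (I × ((J × Λ) × (K × Λ))) →L[ℂ] Ell2 (I × ((J × Λ) × (K × Λ))),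
      adjoint (S * T) = adjoint T * adjoint S := fun S T => ContinuousLinearMap.adjoint_comp S T
  rw [PT, h2, h2, VT_adj, R1T_adj, R2T_adj, hα.p_adj, hβ.p_adj, hγ.p_adj, ← cAB hα hβ,
    ← mul_assoc, ← cAC hα hγ, mul_assoc, ← comm_R1R2, mul_assoc]

/-- the source representation -/
noncomputable def V3 : Γ →* (HH (PT α β γ) →L[ℂ] HH (PT α β γ)) where
  toFun g := cmp (PT α β γ) (PT_three hα hβ hγ).1 (VT J K (α g))
  map_one' := by
    ext1 w
    apply Subtype.ext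
    rw [cmp_val _ ((PT_three hα hβ hγ).2.1 1)]
    have h := (PT_three hα hβ hγ).2.2.2.2.1
    have h2 : VT J K (α 1) (PT α β γ (w : _)) = PT α β γ (w : _) :=
      congrArg (fun T : Ell2 (I × ((J × Λ) × (K × Λ))) →L[ℂ] Ell2 (I × ((J × Λ) × (K × Λ))) =>
        T (w : _)) h
    rw [show PT α β γ (w : _) = w from w.2] at h2
    exact h2
  map_mul' g h := by
    rw [VT_hom hα, cmp_mul' _ ((PT_three hα hβ hγ).2.1 g) ((PT_three hα hβ hγ).2.1 h)]

/-- the target representation of leg 1 -/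
noncomputable def A3R : Γ →* (HH (PT α β γ) →L[ℂ] HH (PT α β γ)) where
  toFun g := cmp (PT α β γ) (PT_three hα hβ hγ).1 (R1T I K (β g))
  map_one' := by
    ext1 w
    apply Subtype.ext
    rw [cmp_val _ ((PT_three hα hβ hγ).2.2.1 1)]
    have h := (PT_three hα hβ hγ).2.2.2.2.2.1
    have h2 : R1T I K (β 1) (PT α β γ (w : _)) = PT α β γ (w : _) :=
      congrArg (fun T : Ell2 (I × ((J × Λ) × (K × Λ))) →L[ℂ] Ell2 (I × ((J × Λ) × (K × Λ))) =>
        T (w : _)) h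
    rw [show PT α β γ (w : _) = w from w.2] at h2
    exact h2
  map_mul' g h := by
    rw [R1T_hom hβ, cmp_mul' _ ((PT_three hα hβ hγ).2.2.1 g) ((PT_three hα hβ hγ).2.2.1 h)]

/-- the target representation of leg 2 -/
noncomputable def B3R : Γ →* (HH (PT α β γ) →L[ℂ] HH (PT α β γ)) where
  toFun g := cmp (PT α β γ) (PT_three hα hβ hγ).1 (R2T I J (γ g))
  map_one' := by
    ext1 w
    apply Subtype.ext
    rw [cmp_val _ ((PT_three hα hβ hγ).2.2.2.1 1)]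
    have h := (PT_three hα hβ hγ).2.2.2.2.2.2
    have h2 : R2T I J (γ 1) (PT α β γ (w : _)) = PT α β γ (w : _) :=
      congrArg (fun T : Ell2 (I × ((J × Λ) × (K × Λ))) →L[ℂ] Ell2 (I × ((J × Λ) × (K × Λ))) =>
        T (w : _)) h
    rw [show PT α β γ (w : _) = w from w.2] at h2
    exact h2
  map_mul' g h := by
    rw [R2T_hom hγ, cmp_mul' _ ((PT_three hα hβ hγ).2.2.2.1 g) ((PT_three hα hβ hγ).2.2.2.1 h)]

theorem V3_val (g : Γ) (w : HH (PT α β γ)) : (V3 hα hβ hγ g w : Ell2 (I × ((J × Λ) × (K × Λ)))) =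
    VT J K (α g) w := cmp_val (PT_three hα hβ hγ).1 ((PT_three hα hβ hγ).2.1 g) w

theorem A3R_val (g : Γ) (w : HH (PT α β γ)) :
    (A3R hα hβ hγ g w : Ell2 (I × ((J × Λ) × (K × Λ)))) = R1T I K (β g) w :=
  cmp_val (PT_three hα hβ hγ).1 ((PT_three hα hβ hγ).2.2.1 g) w

theorem B3R_val (g : Γ) (w : HH (PT α β γ)) :
    (B3R hα hβ hγ g w : Ell2 (I × ((J × Λ) × (K × Λ)))) = R2T I J (γ g) w :=
  cmp_val (PT_three hα hβ hγ).1 ((PT_three hα hβ hγ).2.2.2.1 g) w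

/-! ### The Parseval frame -/

theorem RR3_val (a b : Γ) (w : HH (PT α β γ)) :
    (A3R hα hβ hγ a (B3R hα hβ hγ b w) : Ell2 (I × ((J × Λ) × (K × Λ)))) =
      R1T I K (β a) (R2T I J (γ b) w) := by
  rw [A3R_val, B3R_val]

theorem PT_ne (hΛ : ∀ s : Λ, s ≠ 1 → Set.Infinite {y : Λ | ∃ h, y = h * s * h⁻¹}) :
    PT α β γ ≠ 0 :=
  P_ne hΛ (hα.comm 1) hα.p_adj hα.pp hα.ne (hβ.comm 1) hβ.p_adj hβ.pp hβ.ne (hγ.comm 1) hγ.p_adj
    hγ.pp hγ.ne

theorem exists_tri (hΛ : ∀ s : Λ, s ≠ 1 → Set.Infinite {y : Λ | ∃ h, y = h * s * h⁻¹}) :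
    ∃ (m m' : ℕ) (ξ : I × (Fin m × Fin m') → HH (PT α β γ)),
      SR.Tri (V3 hα hβ hγ) (A3R hα hβ hγ) (B3R hα hβ hγ) ξ := by
  obtain ⟨m, ζ, -, -, hζ⟩ := H58.exists_frame_JT hβ hΛ
  obtain ⟨m', ζ', -, -, hζ'⟩ := H58.exists_frame_JT hγ hΛ
  obtain ⟨hPP, kA, kB, kC, lA, lB, lC⟩ := PT_three hα hβ hγ
  have hPa : ∀ v, PT α β γ (PT α β γ v) = PT α β γ v := fun v =>
    congrArg (fun T : Ell2 (I × ((J × Λ) × (K × Λ))) →L[ℂ] Ell2 (I × ((J × Λ) × (K × Λ))) => T v)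
      hPP
  set ξ : I × (Fin m × Fin m') → HH (PT α β γ) := fun k =>
    ⟨PT α β γ (tv (dl k.1) (tv (ζ k.2.1) (ζ' k.2.2))), hPa _⟩ with hξ
  have frame : ∀ η : HH (PT α β γ), HasSum (fun p : (I × (Fin m × Fin m')) × Γ × Γ =>
      ‖⟪A3R hα hβ hγ p.2.1 (B3R hα hβ hγ p.2.2 (ξ p.1)), η⟫_ℂ‖ ^ 2) (‖η‖ ^ 2) := by
    intro η
    have h1 := frame_tens (fun i : I => (dl i : Ell2 I))
      (fun x : (Fin m × Γ) × (Fin m' × Γ) =>
        (tv (JT (β x.1.2) (ζ x.1.1)) (JT (γ x.2.2) (ζ' x.2.1)) : Ell2 ((J × Λ) × (K × Λ))))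
      1 (tens (JT (β 1)) (JT (γ 1))) frame_dl
      (frame_tens (fun x : Fin m × Γ => JT (β x.2) (ζ x.1))
        (fun x : Fin m' × Γ => JT (γ x.2) (ζ' x.1)) (JT (β 1)) (JT (γ 1)) hζ hζ')
      (η : Ell2 (I × ((J × Λ) × (K × Λ))))
    have h2 : tens (1 : Ell2 I →L[ℂ] Ell2 I) (tens (JT (β 1)) (JT (γ 1)))
        (η : Ell2 (I × ((J × Λ) × (K × Λ)))) = η := by
      have e1 : tens (1 : Ell2 I →L[ℂ] Ell2 I) (tens (JT (β 1)) (JT (γ 1))) =
          R1T I K (β 1) * R2T I J (γ 1) := by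
        rw [R1T, R2T, ← tens_mul, ← tens_mul, one_mul, one_mul, mul_one]
      have e2 : R1T I K (β 1) * R2T I J (γ 1) * PT α β γ = PT α β γ := by
        rw [mul_assoc, lC, lB]
      rw [e1, ← show PT α β γ (η : Ell2 (I × ((J × Λ) × (K × Λ)))) = η from η.2]
      exact congrArg (fun T : Ell2 (I × ((J × Λ) × (K × Λ))) →L[ℂ]
        Ell2 (I × ((J × Λ) × (K × Λ))) => T (η : Ell2 (I × ((J × Λ) × (K × Λ))))) e2
    rw [h2] at h1
    let e : (I × (Fin m × Fin m')) × Γ × Γ ≃ I × ((Fin m × Γ) × (Fin m' × Γ)) :=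
      { toFun := fun p => (p.1.1, ((p.1.2.1, p.2.1), (p.1.2.2, p.2.2)))
        invFun := fun q => ((q.1, (q.2.1.1, q.2.2.1)), (q.2.1.2, q.2.2.2))
        left_inv := fun p => rfl
        right_inv := fun p => rfl }
    have h3 := e.hasSum_iff.mpr h1
    have h4 : ‖(η : Ell2 (I × ((J × Λ) × (K × Λ))))‖ ^ 2 = ‖η‖ ^ 2 := rfl
    rw [h4] at h3
    have key : ∀ i k l a b, ⟪A3R hα hβ hγ a (B3R hα hβ hγ b (ξ (i, (k, l)))), η⟫_ℂ =
        ⟪tv (dl i) (tv (JT (β a) (ζ k)) (JT (γ b) (ζ' l))),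
          (η : Ell2 (I × ((J × Λ) × (K × Λ))))⟫_ℂ := by
      intro i k l a b
      rw [Submodule.coe_inner, RR3_val]
      change ⟪R1T I K (β a) (R2T I J (γ b) (PT α β γ (tv (dl i) (tv (ζ k) (ζ' l))))), _⟫_ℂ = _
      have e3 : R1T I K (β a) * (R2T I J (γ b) * PT α β γ) =
          PT α β γ * (R1T I K (β a) * R2T I J (γ b)) := by
        rw [← kC, ← mul_assoc, ← kB, mul_assoc]
      have e4 : R1T I K (β a) (R2T I J (γ b) (PT α β γ (tv (dl i) (tv (ζ k) (ζ' l))))) =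
          PT α β γ (tv (dl i) (tv (JT (β a) (ζ k)) (JT (γ b) (ζ' l)))) := by
        have e5 : tv (dl i) (tv (JT (β a) (ζ k)) (JT (γ b) (ζ' l))) =
            R1T I K (β a) (R2T I J (γ b) (tv (dl i) (tv (ζ k) (ζ' l)))) := by
          rw [R2T, tens_tv, tens_tv, R1T, tens_tv, tens_tv]
          rfl
        rw [e5]
        exact congrArg (fun T : Ell2 (I × ((J × Λ) × (K × Λ))) →L[ℂ]
          Ell2 (I × ((J × Λ) × (K × Λ))) => T (tv (dl i) (tv (ζ k) (ζ' l)))) e3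
      rw [e4, ← adjoint_inner_right, PT_adj hα hβ hγ,
        show PT α β γ (η : Ell2 (I × ((J × Λ) × (K × Λ)))) = η from η.2]
    have h6 : (fun p : (I × (Fin m × Fin m')) × Γ × Γ =>
      ‖⟪A3R hα hβ hγ p.2.1 (B3R hα hβ hγ p.2.2 (ξ p.1)), η⟫_ℂ‖ ^ 2) =
      fun p : (I × (Fin m × Fin m')) × Γ × Γ =>
        ‖⟪tv (dl p.1.1) (tv (JT (β p.2.1) (ζ p.1.2.1)) (JT (γ p.2.2) (ζ' p.1.2.2))),
          (η : Ell2 (I × ((J × Λ) × (K × Λ))))⟫_ℂ‖ ^ 2 := by
      funext p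
      obtain ⟨⟨i, k, l⟩, a, b⟩ := p
      have h7 := key i k l a b
      simp only []
      rw [h7]
    rw [h6]
    exact h3
  refine ⟨m, m', ξ, ?_, ?_, ?_, ?_, ?_, ?_, ?_, frame⟩
  · exact fun g => cmp_adj hPP (kA g) (kA g⁻¹) (by rw [VT_adj, hα.adj])
  · exact fun g => cmp_adj hPP (kB g) (kB g⁻¹) (by rw [R1T_adj, hβ.adj])
  · exact fun g => cmp_adj hPP (kC g) (kC g⁻¹) (by rw [R2T_adj, hγ.adj])
  · intro g h
    ext1 w
    apply Subtype.ext
    change (V3 hα hβ hγ g (A3R hα hβ hγ h w) : Ell2 (I × ((J × Λ) × (K × Λ)))) =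
      A3R hα hβ hγ h (V3 hα hβ hγ g w)
    rw [V3_val, A3R_val, A3R_val, V3_val]
    exact congrArg (fun T : Ell2 (I × ((J × Λ) × (K × Λ))) →L[ℂ]
      Ell2 (I × ((J × Λ) × (K × Λ))) => T (w : Ell2 (I × ((J × Λ) × (K × Λ))))) (cAB hα hβ g h)
  · intro g h
    ext1 w
    apply Subtype.ext
    change (V3 hα hβ hγ g (B3R hα hβ hγ h w) : Ell2 (I × ((J × Λ) × (K × Λ)))) =
      B3R hα hβ hγ h (V3 hα hβ hγ g w)
    rw [V3_val, B3R_val, B3R_val, V3_val]
    exact congrArg (fun T : Ell2 (I × ((J × Λ) × (K × Λ))) →L[ℂ]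
      Ell2 (I × ((J × Λ) × (K × Λ))) => T (w : Ell2 (I × ((J × Λ) × (K × Λ))))) (cAC hα hγ g h)
  · intro g h
    ext1 w
    apply Subtype.ext
    change (A3R hα hβ hγ g (B3R hα hβ hγ h w) : Ell2 (I × ((J × Λ) × (K × Λ)))) =
      B3R hα hβ hγ h (A3R hα hβ hγ g w)
    rw [A3R_val, B3R_val, B3R_val, A3R_val]
    exact congrArg (fun T : Ell2 (I × ((J × Λ) × (K × Λ))) →L[ℂ]
      Ell2 (I × ((J × Λ) × (K × Λ))) => T (w : Ell2 (I × ((J × Λ) × (K × Λ)))))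
        (comm_R1R2 (β g) (γ h))
  · by_contra hcon
    push Not at hcon
    apply PT_ne hα hβ hγ hΛ
    ext1 v
    have h1 := frame ⟨PT α β γ v, hPa v⟩
    simp only [hcon, map_zero, inner_zero_left, norm_zero] at h1
    have h2 := h1.unique (by
      have : (fun _ : (I × (Fin m × Fin m')) × Γ × Γ => (0 : ℝ) ^ 2) = fun _ => 0 := by
        funext _; ring
      rw [this]
      exact hasSum_zero)
    have h3 : ‖(⟨PT α β γ v, hPa v⟩ : HH (PT α β γ))‖ = 0 := by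
      exact pow_eq_zero_iff two_ne_zero |>.mp h2
    have h4 : ‖PT α β γ v‖ = 0 := h3
    rw [norm_eq_zero.mp h4]
    rfl

end model

/-! ### Conjugate frames -/

section bar

variable {Γ Λ I : Type} [Group Γ] [Group Λ] [Fintype I]
  {α : Γ → (Ell2 (I × Λ) →L[ℂ] Ell2 (I × Λ))}

theorem cj_zero {X : Type} : cj (0 : Ell2 X) = 0 := by
  apply ext_inner_dl
  intro x
  rw [cj_apply]
  exact map_zero _

theorem cj_R (s : Λ) (v : Ell2 (I × Λ)) :
    cj ((FS.mat I Λ).R s v) = (FS.mat I Λ).R s (cj v) := cj_rei _ _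

theorem EqM.bar {x : Ell2 (I × Λ) →L[ℂ] Ell2 (I × Λ)} (hx : EqM x) : EqM (H160.bar x) := by
  intro s v
  rw [bar_apply, bar_apply, cj_R, hx, cj_R]

theorem hasSum_cj {X ι : Type} {f : ι → Ell2 X} {v : Ell2 X} (h : HasSum f v) :
    HasSum (fun i => cj (f i)) (cj v) := by
  have hc : Continuous (cj : Ell2 X → Ell2 X) := by
    refine LipschitzWith.continuous (K := 1) (LipschitzWith.of_dist_le_mul fun u v => ?_)
    rw [NNReal.coe_one, one_mul, dist_eq_norm, dist_eq_norm]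
    have h1 : cj u - cj v = cj (u - v) := by
      apply ext_inner_dl
      intro x
      change (starRingEnd ℂ) (u x) - (starRingEnd ℂ) (v x) = (starRingEnd ℂ) (u x - v x)
      rw [map_sub]
    rw [h1, norm_cj]
  exact h.map (⟨⟨cj, cj_zero⟩, cj_add⟩ : Ell2 X →+ Ell2 X) hc

theorem AF.bar (hα : AF α) : AF (fun g => H160.bar (α g)) where
  mul g h := by rw [hα.mul, bar_mul]
  adj g := by rw [adjoint_bar, hα.adj]
  comm g := EqM.bar (hα.comm g)
  tr0 g hg := by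
    have h := hα.tr0 g hg
    unfold FS.tr at h ⊢
    have h2 : ∀ i : I, ⟪(dl ((FS.mat I Λ).base i) : Ell2 (I × Λ)),
        H160.bar (α g) (dl ((FS.mat I Λ).base i))⟫_ℂ =
        (starRingEnd ℂ) ⟪(dl ((FS.mat I Λ).base i) : Ell2 (I × Λ)),
          α g (dl ((FS.mat I Λ).base i))⟫_ℂ := by
      intro i
      rw [inner_dl, inner_dl, bar_dl, cj_apply]
    rw [Finset.sum_congr rfl fun i _ => h2 i, ← map_sum, h, map_zero]
  exp X hX h1 h2 := by
    have e1 : α 1 * H160.bar X = H160.bar X := by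
      rw [← bar_bar (α 1), ← bar_mul, h1]
    have e2 : H160.bar X * α 1 = H160.bar X := by
      rw [← bar_bar (α 1), ← bar_mul, h2]
    obtain ⟨a, ha⟩ := hα.exp _ (EqM.bar hX) e1 e2
    refine ⟨fun g => (starRingEnd ℂ) (a g), fun i => ?_⟩
    have h3 := hasSum_cj (ha i)
    rw [bar_dl, cj_cj] at h3
    refine h3.congr_fun ?_ |> id
    intro g
    change (starRingEnd ℂ) (a g) • H160.bar (α g) (dl (i, 1)) = cj (a g • α g (dl (i, 1)))
    rw [cj_smul, bar_dl]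
  ne := by
    intro h
    apply hα.ne
    have : H160.bar (H160.bar (α 1)) = H160.bar 0 := congrArg _ h
    rw [bar_bar] at this
    rw [this]
    ext1 v
    rw [bar_apply]
    exact cj_zero

end bar

end Vale.Agent.P092.H962
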